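import Vale.Agent.P080.C1.Defs
import Vale.Agent.P080.C1.Fin

/-!
P080, full C¹: the class `K1` of first limits on a time interval, and the window coordinates of
an infinity-harmonic function at finite `δ`.
-/

namespace Vale.Agent.P080.C1

open Set Metric
open scoped RealInnerProductSpace

variable {F : Type*} [NormedAddCommGroup F] [InnerProductSpace ℝ F]

/-- Comparison with the barriers on boxes with times inside `(-T₀, T₀)`. -/
def LocBarrier (T₀ : ℝ) (w : ℝ → F → ℝ) : Prop :=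
  ∀ (t : ℝ) (y k : F) (T R L M c K : ℝ), 0 < T → 0 < R → 0 ≤ M → 4 * M ^ 3 * R ^ 2 < L →
    -T₀ < t - T → t < T₀ →
    (∀ (σ : ℝ) (z : F), 0 ≤ σ → σ ≤ T → ‖z‖ ≤ R → σ = 0 ∨ σ = T ∨ ‖z‖ = R →
      back w t y k σ z ≤ c + K * σ - L * σ ^ 2 + M * ‖z‖ ^ 2) →
    ∀ (σ : ℝ) (z : F), 0 ≤ σ → σ ≤ T → ‖z‖ ≤ R →
      back w t y k σ z ≤ c + K * σ - L * σ ^ 2 + M * ‖z‖ ^ 2

/-- Monotone forward slopes for steps up to `h₀` inside `(-T₀, T₀)`. -/
def LocMono (T₀ h₀ : ℝ) (w : ℝ → F → ℝ) : Prop :=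
  ∀ t y h k, 0 < h → h ≤ k → k ≤ h₀ → -T₀ < t → t + k < T₀ → Sp w h t y ≤ Sp w k t y

/-- The class `K1` of limits at the unit scale, on the time interval `(-T₀, T₀)`. -/
structure LocProf (T₀ h₀ C : ℝ) (w : ℝ → F → ℝ) : Prop where
  cont : ContinuousOn (fun X : ℝ × F => w X.1 X.2) (Ioo (-T₀) T₀ ×ˢ univ)
  zero : w 0 0 = 0
  growth : ∀ t y, |t| < T₀ → |w t y| ≤ C * (1 + ‖y‖) ^ 2
  slices : ∀ t y z, |t| < T₀ → ‖z‖ ≤ 1 → |w t (y + z) + w t (y - z) - 2 * w t y| ≤ C * ‖z‖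
  mono : LocMono T₀ h₀ w
  mono_mir : LocMono T₀ h₀ (mir w)
  barrier : LocBarrier T₀ w
  barrier_mir : LocBarrier T₀ (mir w)

variable {E : Type*} [NormedAddCommGroup E] [InnerProductSpace ℝ E]

/-- The function `u` around `x` in units: length `r` along the unit vector `e`, `r √δ` across it,
values `r δ`, minus the slope one along `e`. -/
noncomputable def scaled (u : E → ℝ) (x e : E) (r δ : ℝ) : ℝ → (ℝ ∙ e)ᗮ → ℝ :=
  fun t ξ => (u (x + r • (t • e + Real.sqrt δ • (ξ : E))) - u x - r * t) / (r * δ)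

end Vale.Agent.P080.C1
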