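import Vale.Agent.P080.Cones
import Vale.Agent.P080.C1.Loc.Defs

/-!
B4, dictionary for the barrier: the quadratic barriers of the limit equation are strict
supersolutions at finite `δ`, so comparison with them passes to limits of scaled solutions.
-/

namespace Vale.Agent.P080.C1

open Metric Set Filter Topology
open scoped RealInnerProductSpace

set_option linter.unusedSectionVars false

variable {E : Type*} [NormedAddCommGroup E] [InnerProductSpace ℝ E] [FiniteDimensional ℝ E]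

/-- The sign of the infinity-Laplacian of the lifted barrier, up to a positive factor. -/
noncomputable def barrierSign (M R L B k d : ℝ) : ℝ :=
  -2 * L * (1 - 2 * d * B) + 2 * M * (2 * M * R + d * B * k) ^ 2

/-- The infinity-Laplacian of the lifted barrier at a point of the box. -/
theorem lifted_neg {e : E} (he : ‖e‖ = 1) {V : Submodule ℝ E}
    (hV : ∀ ξ : V, ⟪e, (ξ : E)⟫ = 0) {A d t K L M c R T : ℝ} {y k : V}
    (hd : 0 < d) (hL : 0 ≤ L) (hM : 0 ≤ M) (hR : 0 ≤ R) {B : ℝ}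
    (hB : B = |K| + 2 * L * T + ‖k‖ ^ 2 / 2 + 2 * M * R * ‖k‖)
    (hneg : barrierSign M R L B ‖k‖ d < 0) {ψ : E → ℝ}
    (hψ : ∀ x, ψ x = A + ⟪e, x⟫ + d * (c + K * (t - ⟪e, x⟫) - L * (t - ⟪e, x⟫) ^ 2 +
      M * ‖(Real.sqrt d)⁻¹ • V.orthogonalProjectionOnto x - ⟪e, x⟫ • k + (t • k - y)‖ ^ 2 +
      ⟪k, (Real.sqrt d)⁻¹ • V.orthogonalProjectionOnto x - ⟪e, x⟫ • k + (t • k - y)⟫ -
      ‖k‖ ^ 2 / 2 * (t - ⟪e, x⟫))) :
    ContDiff ℝ 2 ψ ∧ ∀ x, 0 ≤ t - ⟪e, x⟫ → t - ⟪e, x⟫ ≤ T →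
      ‖(Real.sqrt d)⁻¹ • V.orthogonalProjectionOnto x - ⟪e, x⟫ • k + (t • k - y)‖ ≤ R →
      fderiv ℝ (fderiv ℝ ψ) x (gradient ψ x) (gradient ψ x) < 0 := by
  set S : E →L[ℝ] ℝ := innerSL ℝ e with hS
  set m := (Real.sqrt d)⁻¹ with hm
  set Lz : E →L[ℝ] V := m • V.orthogonalProjectionOnto - S.smulRight k with hLz
  set z : E → V := fun x => Lz x + (t • k - y) with hz
  have hzx : ∀ x, z x = m • V.orthogonalProjectionOnto x - ⟪e, x⟫ • k + (t • k - y) :=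
    fun x => rfl
  have hψ' : ψ = fun x => A + S x + d * (c + K * (t - S x) - L * (t - S x) ^ 2 +
      M * ‖z x‖ ^ 2 + ⟪k, z x⟫ - ‖k‖ ^ 2 / 2 * (t - S x)) := funext hψ
  have hzc : ContDiff ℝ 2 z := Lz.contDiff.add contDiff_const
  have hcd : ContDiff ℝ 2 ψ := by
    rw [hψ']
    exact (contDiff_const.add S.contDiff).add (contDiff_const.mul
      ((((contDiff_const.add (contDiff_const.mul (contDiff_const.sub S.contDiff))).sub
        (contDiff_const.mul ((contDiff_const.sub S.contDiff).pow 2))).add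
        (contDiff_const.mul (hzc.norm_sq ℝ))).add (contDiff_const.inner ℝ hzc) |>.sub
          (contDiff_const.mul (contDiff_const.sub S.contDiff))))
  refine ⟨hcd, ?_⟩
  set D : E → E → ℝ := fun x h => S h + d * ((-K + 2 * L * (t - S x) + ‖k‖ ^ 2 / 2) * S h +
    2 * M * ⟪z x, Lz h⟫ + ⟪k, Lz h⟫) with hD
  have hfd : ∀ x h, fderiv ℝ ψ x h = D x h := by
    intro x h
    have h1 : HasFDerivAt z Lz x := Lz.hasFDerivAt.add_const _
    have h2 : HasFDerivAt (fun w => t - S w) (-S) x := S.hasFDerivAt.const_sub t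
    have h3 : HasFDerivAt (fun w => A + S w + d * (c + K * (t - S w) - L * (t - S w) ^ 2 +
      M * ‖z w‖ ^ 2 + ⟪k, z w⟫ - ‖k‖ ^ 2 / 2 * (t - S w))) _ x :=
      (S.hasFDerivAt.const_add A).add ((((((h2.const_mul K).const_add c).sub
        ((h2.pow 2).const_mul L)).add ((h1.norm_sq).const_mul M)).add
        ((hasFDerivAt_const k x).inner ℝ h1)).sub (h2.const_mul (‖k‖ ^ 2 / 2)) |>.const_mul d)
    rw [hψ', h3.fderiv]
    simp [hD, fderivInnerCLM_apply]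
    ring
  intro x h0 hT hn
  rw [← hzx x] at hn
  set g := gradient ψ x with hg
  have hgi : ∀ h, ⟪g, h⟫ = D x h := fun h => by
    rw [← hfd]; unfold g gradient; rw [InnerProductSpace.toDual_symm_apply]
  set a := S g with ha
  have hH : fderiv ℝ (fderiv ℝ ψ) x g g = d * (-(2 * L) * a ^ 2 + 2 * M * ‖Lz g‖ ^ 2) := by
    have hdiff : DifferentiableAt ℝ (fderiv ℝ ψ) x :=
      (hcd.fderiv_right (m := 1) (by norm_num)).differentiable one_ne_zero x
    have e1 : fderiv ℝ (fun w => fderiv ℝ ψ w g) x g = fderiv ℝ (fderiv ℝ ψ) x g g := by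
      rw [fderiv_clm_apply hdiff (differentiableAt_const g)]
      simp
    rw [← e1, show (fun w => fderiv ℝ ψ w g) = fun w => D w g from funext fun w => hfd w g]
    have h1 : HasFDerivAt z Lz x := Lz.hasFDerivAt.add_const _
    have h2 : HasFDerivAt (fun w => t - S w) (-S) x := S.hasFDerivAt.const_sub t
    have h4 : HasFDerivAt (fun w => D w g) _ x :=
      (((((h2.const_mul (2 * L)).const_add (-K)).add_const (‖k‖ ^ 2 / 2)).mul_const (S g)).add
        ((h1.inner ℝ (hasFDerivAt_const (Lz g) x)).const_mul (2 * M)) |>.add_const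
          ⟪k, Lz g⟫ |>.const_mul d |>.const_add (S g))
    rw [h4.fderiv]
    simp [fderivInnerCLM_apply, ← ha]
    ring
  rw [hH]
  refine mul_neg_of_pos_of_neg hd ?_
  set β := -K + 2 * L * (t - S x) + ‖k‖ ^ 2 / 2 - 2 * M * ⟪z x, k⟫ - ‖k‖ ^ 2 with hβ
  have hPe : V.orthogonalProjectionOnto e = 0 :=
    Submodule.orthogonalProjectionOnto_apply_of_mem_orthogonal
      ((Submodule.mem_orthogonal' _ _).2 fun v hv => hV ⟨v, hv⟩)
  have hSe : S e = 1 := by simp [hS, real_inner_self_eq_norm_sq, he]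
  have haβ : a = 1 + d * β := by
    rw [ha, hS, innerSL_apply_apply, real_inner_comm, hgi e]
    have hLe : Lz e = -k := by simp [hLz, hPe, hSe]
    simp only [hD, hLe, hSe, hβ, inner_neg_right, real_inner_self_eq_norm_sq]
    ring
  have hsq : Real.sqrt d * Real.sqrt d = d := Real.mul_self_sqrt hd.le
  have hdm : d * m * m = 1 := by
    rw [hm]; field_simp; linarith [Real.mul_self_sqrt hd.le]
  have hPg : V.orthogonalProjectionOnto g = (d * m) • ((2 * M) • z x + k) := by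
    refine ext_inner_right ℝ fun v => ?_
    rw [Submodule.inner_orthogonalProjectionOnto_eq_of_mem_right, hgi]
    have hSv : S (v : E) = 0 := hV v
    simp [hD, hLz, hSv, real_inner_smul_left, real_inner_smul_right, inner_add_left,
      Submodule.orthogonalProjectionOnto_mem_subspace_eq_self]
    ring
  have hLg : Lz g = (2 * M) • z x - (d * β) • k := by
    have : m * (d * m) = 1 := by linarith
    simp only [hLz, ← ha, ContinuousLinearMap.sub_apply, ContinuousLinearMap.smul_apply,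
      ContinuousLinearMap.smulRight_apply, hPg, smul_smul, this, one_smul, haβ]
    module
  have hT0 : (0 : ℝ) ≤ T := h0.trans hT
  have hβB : |β| ≤ B := by
    have h5 : |⟪z x, k⟫| ≤ R * ‖k‖ :=
      (abs_real_inner_le_norm _ _).trans (mul_le_mul_of_nonneg_right hn (norm_nonneg _))
    have h6 := mul_le_mul_of_nonneg_left h5 (by linarith : (0 : ℝ) ≤ 2 * M)
    have h8 := abs_le.1 (show |2 * M * ⟪z x, k⟫| ≤ 2 * M * (R * ‖k‖) by
      rw [abs_mul, abs_of_nonneg (by linarith : (0 : ℝ) ≤ 2 * M)]; exact h6)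
    have h7 := mul_le_mul_of_nonneg_left (show t - S x ≤ T from hT) (by linarith : (0 : ℝ) ≤ 2 * L)
    have h9 : 0 ≤ 2 * L * (t - S x) := mul_nonneg (by linarith) h0
    rw [hB, hβ, abs_le]
    have hk := abs_le.1 (le_refl |K|)
    have hk0 : (0 : ℝ) ≤ ‖k‖ ^ 2 := sq_nonneg _
    constructor <;> linarith [h8.1, h8.2, hk.1, hk.2]
  have hB0 : 0 ≤ B := (abs_nonneg _).trans hβB
  have hn2 : ‖Lz g‖ ≤ 2 * M * R + d * B * ‖k‖ := by
    rw [hLg]
    refine (norm_sub_le _ _).trans (add_le_add ?_ ?_)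
    · rw [norm_smul, Real.norm_of_nonneg (by linarith : (0 : ℝ) ≤ 2 * M)]
      exact mul_le_mul_of_nonneg_left hn (by linarith)
    · rw [norm_smul, Real.norm_eq_abs, abs_mul, abs_of_pos hd]
      exact mul_le_mul_of_nonneg_right (mul_le_mul_of_nonneg_left hβB hd.le) (norm_nonneg _)
  have ha2 : 1 - 2 * d * B ≤ a ^ 2 := by
    rw [haβ]
    nlinarith [sq_nonneg (d * β), mul_le_mul_of_nonneg_left (abs_le.1 hβB).1 hd.le]
  have h5 := mul_le_mul_of_nonneg_left (pow_le_pow_left₀ (norm_nonneg _) hn2 2)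
    (by linarith : (0 : ℝ) ≤ 2 * M)
  have h6 := mul_le_mul_of_nonneg_left ha2 (by linarith : (0 : ℝ) ≤ 2 * L)
  unfold barrierSign at hneg
  linarith

/-- Comparison of a scaled subsolution with the barrier on one box. -/
theorem scaled_comparison {e : E} (he : ‖e‖ = 1) {V : Submodule ℝ E}
    (hV : ∀ ξ : V, ⟪e, (ξ : E)⟫ = 0)
    (hdec : ∀ x : E, ⟪e, x⟫ • e + (V.orthogonalProjectionOnto x : E) = x) {U : Set E} {v : E → ℝ}
    (hc : ContinuousOn v U)
    (hsub : ∀ z ∈ U, ∀ φ : E → ℝ, ContDiff ℝ 2 φ → IsLocalMax (fun y => v y - φ y) z →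
      0 ≤ fderiv ℝ (fderiv ℝ φ) z (gradient φ z) (gradient φ z))
    {d t T R L M c K A : ℝ} {y k : V} (hd : 0 < d) (hT : 0 ≤ T) (hR : 0 ≤ R) (hL : 0 ≤ L)
    (hM : 0 ≤ M)
    (hneg : barrierSign M R L
      (|K| + 2 * L * T + ‖k‖ ^ 2 / 2 + 2 * M * R * ‖k‖) ‖k‖ d < 0)
    {W : ℝ → V → ℝ}
    (hW : ∀ τ (ξ : V), W τ ξ = (v (τ • e + Real.sqrt d • (ξ : E)) - A - τ) / d)
    (hU : ∀ (σ : ℝ) (z : V), 0 ≤ σ → σ ≤ T → ‖z‖ ≤ R →
      (t - σ) • e + Real.sqrt d • ((y - σ • k + z : V) : E) ∈ U)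
    (hbd : ∀ (σ : ℝ) (z : V), 0 ≤ σ → σ ≤ T → ‖z‖ ≤ R → σ = 0 ∨ σ = T ∨ ‖z‖ = R →
      back W t y k σ z ≤ c + K * σ - L * σ ^ 2 + M * ‖z‖ ^ 2) :
    ∀ (σ : ℝ) (z : V), 0 ≤ σ → σ ≤ T → ‖z‖ ≤ R →
      back W t y k σ z ≤ c + K * σ - L * σ ^ 2 + M * ‖z‖ ^ 2 := by
  set m := (Real.sqrt d)⁻¹ with hm
  have hs : 0 < Real.sqrt d := Real.sqrt_pos.2 hd
  obtain ⟨ψ, hψ⟩ : ∃ ψ : E → ℝ, ∀ x, ψ x = A + ⟪e, x⟫ + d * (c + K * (t - ⟪e, x⟫)
      - L * (t - ⟪e, x⟫) ^ 2 +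
      M * ‖m • V.orthogonalProjectionOnto x - ⟪e, x⟫ • k + (t • k - y)‖ ^ 2 +
      ⟪k, m • V.orthogonalProjectionOnto x - ⟪e, x⟫ • k + (t • k - y)⟫ -
      ‖k‖ ^ 2 / 2 * (t - ⟪e, x⟫)) := ⟨_, fun _ => rfl⟩
  obtain ⟨hcd, hneg'⟩ := lifted_neg he hV hd hL hM hR rfl hneg hψ
  set zc : E → V := fun x => m • V.orthogonalProjectionOnto x - ⟪e, x⟫ • k + (t • k - y) with hzc
  set pt : ℝ × V → E :=
    fun p => (t - p.1) • e + Real.sqrt d • ((y - p.1 • k + p.2 : V) : E) with hpt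
  have hinv : ∀ σ (z : V), t - ⟪e, pt (σ, z)⟫ = σ ∧ zc (pt (σ, z)) = z := by
    intro σ z
    have h1 : ⟪e, pt (σ, z)⟫ = t - σ := by
      simp only [hpt, inner_add_right, real_inner_smul_right, real_inner_self_eq_norm_sq, he, hV]
      ring
    have h2 : V.orthogonalProjectionOnto e = 0 :=
      Submodule.orthogonalProjectionOnto_apply_of_mem_orthogonal
        ((Submodule.mem_orthogonal' _ _).2 fun v hv => hV ⟨v, hv⟩)
    refine ⟨by rw [h1]; ring, ?_⟩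
    simp only [hzc, h1]
    simp only [hpt, map_add, map_smul, h2, smul_zero, zero_add,
      Submodule.orthogonalProjectionOnto_mem_subspace_eq_self, hm, inv_smul_smul₀ hs.ne']
    module
  have hsurj : ∀ x, pt (t - ⟪e, x⟫, zc x) = x := fun x => by
    simp only [hpt, hzc, sub_sub_cancel]
    rw [show y - (t - ⟪e, x⟫) • k + (m • V.orthogonalProjectionOnto x - ⟪e, x⟫ • k + (t • k - y))
      = m • V.orthogonalProjectionOnto x by module, Submodule.coe_smul, hm, smul_inv_smul₀ hs.ne']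
    exact hdec x
  have key : ∀ σ z, back W t y k σ z - (c + K * σ - L * σ ^ 2 + M * ‖z‖ ^ 2) =
      (v (pt (σ, z)) - ψ (pt (σ, z))) / d := by
    intro σ z
    obtain ⟨h1, h2⟩ := hinv σ z
    rw [hψ, show m • V.orthogonalProjectionOnto (pt (σ, z)) - ⟪e, pt (σ, z)⟫ • k + (t • k - y) = z
      from h2, h1, show ⟪e, pt (σ, z)⟫ = t - σ by linarith]
    simp only [back, hW, hpt]
    field_simp
    ring
  intro σ z hσ hσT hz
  by_contra hlt
  push Not at hlt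
  set Box : Set (ℝ × V) := Icc 0 T ×ˢ closedBall 0 R with hBox
  have hmem : ∀ p ∈ Box, pt p ∈ U := fun p hp =>
    hU p.1 p.2 hp.1.1 hp.1.2 (mem_closedBall_zero_iff.1 hp.2)
  have hcont : ContinuousOn (fun p => v (pt p) - ψ (pt p)) Box := by
    have hp : Continuous pt := by rw [hpt]; fun_prop
    exact (hc.comp hp.continuousOn hmem).sub (hcd.continuous.comp hp).continuousOn
  obtain ⟨⟨σ', z'⟩, hp', hmax⟩ := (isCompact_Icc.prod (isCompact_closedBall _ _)).exists_isMaxOn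
    ⟨(σ, z), ⟨hσ, hσT⟩, mem_closedBall_zero_iff.2 hz⟩ hcont
  have hσ' : 0 ≤ σ' ∧ σ' ≤ T := hp'.1
  have hz' : ‖z'‖ ≤ R := mem_closedBall_zero_iff.1 hp'.2
  have hval : 0 < v (pt (σ', z')) - ψ (pt (σ', z')) := by
    have h1 : 0 < v (pt (σ, z)) - ψ (pt (σ, z)) := by
      have := key σ z
      rw [eq_div_iff hd.ne'] at this
      rw [← this]; exact mul_pos (by linarith) hd
    exact h1.trans_le (hmax ⟨⟨hσ, hσT⟩, mem_closedBall_zero_iff.2 hz⟩)
  have hint : ¬(σ' = 0 ∨ σ' = T ∨ ‖z'‖ = R) := fun hb => by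
    have h1 := hbd σ' z' hσ'.1 hσ'.2 hz' hb
    have h2 := key σ' z'
    have h3 : 0 < (v (pt (σ', z')) - ψ (pt (σ', z'))) / d := div_pos hval hd
    linarith
  push Not at hint
  have hloc : IsLocalMax (fun x => v x - ψ x) (pt (σ', z')) := by
    have hcs : Continuous fun x : E => t - ⟪e, x⟫ := by fun_prop
    have hcz : Continuous zc := by rw [hzc]; fun_prop
    have hopen : IsOpen {x : E | 0 < t - ⟪e, x⟫ ∧ t - ⟪e, x⟫ < T ∧ ‖zc x‖ < R} :=
      (isOpen_lt continuous_const hcs).inter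
        ((isOpen_lt hcs continuous_const).inter (isOpen_lt hcz.norm continuous_const))
    obtain ⟨h1, h2⟩ := hinv σ' z'
    filter_upwards [hopen.mem_nhds (show pt (σ', z') ∈ _ from
      ⟨by rw [h1]; exact lt_of_le_of_ne hσ'.1 (Ne.symm hint.1),
        by rw [h1]; exact lt_of_le_of_ne hσ'.2 hint.2.1,
        by rw [h2]; exact lt_of_le_of_ne hz' hint.2.2⟩)] with x hx
    obtain ⟨a1, a2, a3⟩ := hx
    have := hmax (a := (t - ⟪e, x⟫, zc x)) ⟨⟨a1.le, a2.le⟩, mem_closedBall_zero_iff.2 a3.le⟩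
    simpa [hsurj x] using this
  have h0 := hsub _ (hmem _ hp') ψ hcd hloc
  obtain ⟨h1, h2⟩ := hinv σ' z'
  have h3 := hneg' (pt (σ', z')) (by rw [h1]; exact hσ'.1) (by rw [h1]; exact hσ'.2)
    (le_of_eq_of_le (congrArg norm h2) hz')
  linarith

/-- Comparison with the barriers passes to limits of scaled subsolutions. -/
theorem locBarrier_of_sub {e : E} (he : ‖e‖ = 1) {V : Submodule ℝ E}
    (hV : ∀ ξ : V, ⟪e, (ξ : E)⟫ = 0)
    (hdec : ∀ x : E, ⟪e, x⟫ • e + (V.orthogonalProjectionOnto x : E) = x)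
    {v : ℕ → E → ℝ} {δ : ℕ → ℝ} {A : ℕ → ℝ} (hδ : ∀ n, 0 < δ n) (hδ0 : Tendsto δ atTop (𝓝 0))
    (hc : ∀ n, ContinuousOn (v n) (ball 0 8))
    (hsub : ∀ n, ∀ z ∈ ball (0 : E) 8, ∀ φ : E → ℝ, ContDiff ℝ 2 φ →
      IsLocalMax (fun y => v n y - φ y) z →
      0 ≤ fderiv ℝ (fderiv ℝ φ) z (gradient φ z) (gradient φ z))
    {W : ℕ → ℝ → V → ℝ}
    (hWn : ∀ n τ (ξ : V), W n τ ξ =
      (v n (τ • e + Real.sqrt (δ n) • (ξ : E)) - A n - τ) / δ n)
    {T₀ : ℝ} (hT₀ : T₀ ≤ 4) {w : ℝ → V → ℝ}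
    (hw : ∀ K, IsCompact K → K ⊆ Ioo (-T₀) T₀ ×ˢ (univ : Set V) →
      TendstoUniformlyOn (fun n (X : ℝ × V) => W n X.1 X.2) (fun X => w X.1 X.2) atTop K) :
    LocBarrier T₀ w := by
  intro t y k T R L M c K hT hR hM hL h1 h2 hbd σ z hσ hσT hz
  refine le_of_forall_pos_le_add fun ε hε => ?_
  have hL0 : 0 < L := lt_of_le_of_lt (by positivity) hL
  set Box := (fun p : ℝ × V => (t - p.1, y - p.1 • k + p.2)) '' (Icc 0 T ×ˢ closedBall 0 R)
  have hBc : IsCompact Box :=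
    (isCompact_Icc.prod (isCompact_closedBall _ _)).image (by fun_prop)
  have hBsub : Box ⊆ Ioo (-T₀) T₀ ×ˢ (univ : Set V) := by
    rintro _ ⟨p, hp, rfl⟩
    exact ⟨⟨by linarith [hp.1.2], by linarith [hp.1.1]⟩, mem_univ _⟩
  have hev1 := Metric.tendstoUniformlyOn_iff.1 (hw Box hBc hBsub) (ε / 2) (half_pos hε)
  set B := |K| + 2 * L * T + ‖k‖ ^ 2 / 2 + 2 * M * R * ‖k‖
  have hev2 : ∀ᶠ n in atTop, barrierSign M R L B ‖k‖ (δ n) < 0 := by
    have hcon : Continuous (barrierSign M R L B ‖k‖) := by unfold barrierSign; fun_prop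
    refine ((hcon.tendsto 0).comp hδ0).eventually (gt_mem_nhds ?_)
    simp only [barrierSign, mul_zero, zero_mul, sub_zero, mul_one, add_zero]
    nlinarith
  have hev3 : ∀ᶠ n in atTop, Real.sqrt (δ n) * (‖y‖ + T * ‖k‖ + R) < 4 := by
    refine (((Real.continuous_sqrt.tendsto 0).comp hδ0).mul_const _).eventually
      (gt_mem_nhds ?_)
    simp
  obtain ⟨n, hn1, hn2, hn3⟩ := (hev1.and (hev2.and hev3)).exists
  have hU : ∀ (σ : ℝ) (z : V), 0 ≤ σ → σ ≤ T → ‖z‖ ≤ R →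
      (t - σ) • e + Real.sqrt (δ n) • ((y - σ • k + z : V) : E) ∈ ball (0 : E) 8 := by
    intro σ z ha hb hz
    rw [mem_ball_zero_iff]
    refine lt_of_le_of_lt (norm_add_le _ _) ?_
    rw [norm_smul, norm_smul, he, mul_one, Real.norm_eq_abs,
      Real.norm_of_nonneg (Real.sqrt_nonneg _), ← Submodule.coe_norm]
    have ha1 : |t - σ| < 4 := abs_lt.2 ⟨by linarith, by linarith⟩
    have ha2 : ‖y - σ • k + z‖ ≤ ‖y‖ + T * ‖k‖ + R := by
      refine (norm_add_le _ _).trans (add_le_add ((norm_sub_le _ _).trans ?_) hz)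
      rw [norm_smul, Real.norm_of_nonneg ha]
      linarith [mul_le_mul_of_nonneg_right hb (norm_nonneg k)]
    linarith [mul_le_mul_of_nonneg_left ha2 (Real.sqrt_nonneg (δ n))]
  have hd : ∀ (σ : ℝ) (z : V), 0 ≤ σ → σ ≤ T → ‖z‖ ≤ R →
      |back w t y k σ z - back (W n) t y k σ z| ≤ ε / 2 := by
    intro σ z ha hb hc'
    have h4 := hn1 (t - σ, y - σ • k + z) ⟨(σ, z), ⟨⟨ha, hb⟩, mem_closedBall_zero_iff.2 hc'⟩, rfl⟩
    rw [Real.dist_eq] at h4
    simp only [back, add_sub_add_right_eq_sub, sub_sub_sub_cancel_right]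
    exact h4.le
  have h5 := scaled_comparison he hV hdec (hc n) (hsub n) (c := c + ε / 2) (hδ n) hT.le hR.le
    hL0.le hM hn2 (hWn n) hU (fun σ z a b d f => by
      linarith [(abs_le.1 (hd σ z a b d)).1, hbd σ z a b d f]) σ z hσ hσT hz
  linarith [(abs_le.1 (hd σ z hσ hσT hz)).2]

/-- Limits of scaled solutions satisfy both comparisons with the barriers. -/
theorem locBarrier_of_tendsto {e : E} (he : ‖e‖ = 1) {u : ℕ → E → ℝ} {δ : ℕ → ℝ}
    (hδ : ∀ n, 0 < δ n) (hδ0 : Tendsto δ atTop (𝓝 0)) (hu : ∀ n, Visc (ball 0 8) (u n))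
    {T₀ : ℝ} (hT₀ : T₀ ≤ 4) {w : ℝ → (ℝ ∙ e)ᗮ → ℝ}
    (hw : ∀ K, IsCompact K → K ⊆ Ioo (-T₀) T₀ ×ˢ (univ : Set (ℝ ∙ e)ᗮ) →
      TendstoUniformlyOn (fun n (X : ℝ × (ℝ ∙ e)ᗮ) => scaled (u n) 0 e 1 (δ n) X.1 X.2)
        (fun X => w X.1 X.2) atTop K) :
    LocBarrier T₀ w ∧ LocBarrier T₀ (mir w) := by
  have hV : ∀ ξ : (ℝ ∙ e)ᗮ, ⟪e, (ξ : E)⟫ = 0 := fun ξ =>
    Submodule.mem_orthogonal_singleton_iff_inner_right.1 ξ.2
  have hdec : ∀ x : E, ⟪e, x⟫ • e + ((ℝ ∙ e)ᗮ.orthogonalProjectionOnto x : E) = x := fun x => by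
    have h1 := Submodule.starProjection_add_starProjection_orthogonal (K := (ℝ ∙ e : Submodule ℝ E)) x
    rw [Submodule.starProjection_unit_singleton ℝ he, Submodule.starProjection_apply] at h1
    exact h1
  refine ⟨locBarrier_of_sub he hV hdec (A := fun n => u n 0) hδ hδ0 (fun n => (hu n).cont)
    (fun n => (hu n).sub) (fun n τ ξ => by simp [scaled]) hT₀ hw, ?_⟩
  refine locBarrier_of_sub (e := -e) (by rw [norm_neg, he])
    (fun ξ => by rw [inner_neg_left, hV, neg_zero])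
    (fun x => by rw [inner_neg_left, neg_smul_neg]; exact hdec x)
    (v := fun n x => -u n x) (A := fun n => -u n 0)
    hδ hδ0 (fun n => (hu n).cont.neg) (fun n z hz φ hφ hmax => ?_)
    (W := fun n => mir (scaled (u n) 0 e 1 (δ n))) (fun n τ ξ => ?_) hT₀ (fun K hK hKs => ?_)
  · have h := (hu n).sup z hz (fun y => -φ y) hφ.neg
      (hmax.neg.congr (Eventually.of_forall fun y => by simp; ring))
    rw [infLap_neg] at h
    linarith
  · rw [smul_neg, ← neg_smul]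
    simp only [mir, scaled, zero_add, one_smul, one_mul]
    ring
  · have hK' : IsCompact ((fun X : ℝ × (ℝ ∙ e)ᗮ => (-X.1, X.2)) '' K) := hK.image (by fun_prop)
    have hsub' : (fun X : ℝ × (ℝ ∙ e)ᗮ => (-X.1, X.2)) '' K ⊆ Ioo (-T₀) T₀ ×ˢ univ := by
      rintro _ ⟨X, hX, rfl⟩
      obtain ⟨⟨a, b⟩, -⟩ := hKs hX
      exact ⟨⟨by linarith, by linarith⟩, mem_univ _⟩
    have h := Metric.tendstoUniformlyOn_iff.1 (hw _ hK' hsub')
    refine Metric.tendstoUniformlyOn_iff.2 fun ε hε => ?_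
    filter_upwards [h ε hε] with n hn X hX
    simp only [mir, dist_neg_neg]
    exact hn _ ⟨X, hX, rfl⟩

end Vale.Agent.P080.C1
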