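import Vale.Agent.P080.C1.Loc.Defs
import Vale.Agent.P080.Cones

/-!
B4, monotone slopes: the dictionary between the maximum over balls at finite `δ` and the
Hopf-Lax slopes of the limit of the scaled functions (P080).
-/

namespace Vale.Agent.P080.C1

open Metric Set Filter Topology
open scoped RealInnerProductSpace

set_option linter.unusedSectionVars false

variable {E : Type*} [NormedAddCommGroup E] [InnerProductSpace ℝ E] [FiniteDimensional ℝ E]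
variable {F : Type*} [NormedAddCommGroup F] [InnerProductSpace ℝ F] [FiniteDimensional ℝ F]

/-- Real algebra: a competitor at distance below `k` has time shift near `k` and bounded lateral
shift, when its gain is not too negative. -/
theorem maximiser_bounds {c k δ m Δ τ ζ Y : ℝ} (hc : 0 ≤ c) (hk : 0 < k) (hck : 16 * c * k ≤ 1)
    (hδ : 0 < δ) (hball : τ ^ 2 + δ * ζ ^ 2 ≤ k ^ 2) (hm : δ * m = δ * Δ + τ - k)
    (hΔ : Δ ≤ 2 * c * ζ ^ 2 + 3 * c * Y ^ 2) (hlow : -(2 * c * Y ^ 2) ≤ m) :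
    |τ| ≤ k ∧ m ≤ Δ - ζ ^ 2 / (2 * k) ∧ ζ ^ 2 ≤ Y ^ 2 ∧ k - τ ≤ δ * (7 * c * Y ^ 2) ∧
      m ≤ 5 * c * Y ^ 2 := by
  have hδζ : 0 ≤ δ * ζ ^ 2 := by positivity
  obtain ⟨hτ1, hτ2⟩ := abs_le_of_sq_le_sq' (show τ ^ 2 ≤ k ^ 2 by linarith) hk.le
  have h1 : δ * ζ ^ 2 ≤ (k - τ) * (2 * k) := by
    have := mul_le_mul_of_nonneg_left (show k + τ ≤ 2 * k by linarith) (show 0 ≤ k - τ by linarith)
    nlinarith
  have h2 : m ≤ Δ - ζ ^ 2 / (2 * k) := by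
    refine le_of_mul_le_mul_left ?_ hδ
    rw [hm, mul_sub, mul_div_assoc']
    have : δ * ζ ^ 2 / (2 * k) ≤ k - τ := by rwa [div_le_iff₀ (by positivity)]
    linarith
  have h3 : ζ ^ 2 / (2 * k) - 2 * c * ζ ^ 2 ≤ 5 * c * Y ^ 2 := by linarith
  have h4 : ζ ^ 2 * (1 / (2 * k) - 2 * c) ≤ 5 * c * Y ^ 2 := by linarith [h3,
    show ζ ^ 2 * (1 / (2 * k) - 2 * c) = ζ ^ 2 / (2 * k) - 2 * c * ζ ^ 2 by ring]
  have h5 : 3 / (8 * k) ≤ 1 / (2 * k) - 2 * c := by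
    have : 2 * c ≤ 1 / (8 * k) := by rw [le_div_iff₀ (by positivity)]; linarith
    linarith [show 1 / (2 * k) - 1 / (8 * k) = 3 / (8 * k) by field_simp; ring]
  have h6 := (mul_le_mul_of_nonneg_left h5 (sq_nonneg ζ)).trans h4
  rw [mul_div_assoc', div_le_iff₀ (by positivity)] at h6
  have hζ : ζ ^ 2 ≤ Y ^ 2 := by
    have h7 : c * k * Y ^ 2 ≤ Y ^ 2 / 16 := by
      have := mul_le_mul_of_nonneg_right hck (sq_nonneg Y)
      linarith
    linarith [sq_nonneg ζ, sq_nonneg Y]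
  have hΔ5 : Δ ≤ 5 * c * Y ^ 2 := by
    have := mul_le_mul_of_nonneg_left hζ (by positivity : 0 ≤ 2 * c)
    linarith
  refine ⟨abs_le.2 ⟨hτ1, hτ2⟩, h2, hζ, ?_, ?_⟩
  · have := mul_le_mul_of_nonneg_left (show Δ - m ≤ 7 * c * Y ^ 2 by linarith) hδ.le
    linarith
  · have : 0 ≤ ζ ^ 2 / (2 * k) := by positivity
    linarith

variable {e : E} {ι : F →ₗᵢ[ℝ] E}

/-- The norm of a combination along and across `e`. -/
theorem norm_sq_axes (he : ‖e‖ = 1) (hι : ∀ z, ⟪e, ι z⟫ = 0) (a b : ℝ) (z : F) :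
    ‖a • e + b • ι z‖ ^ 2 = a ^ 2 + b ^ 2 * ‖z‖ ^ 2 := by
  rw [norm_add_sq_real, norm_smul, norm_smul, he, real_inner_smul_left, real_inner_smul_right,
    hι z, ι.norm_map]
  simp [mul_pow, sq_abs]

/-- A point of the closed ball around a point in coordinates along and across `e`. -/
theorem exists_axes (he : ‖e‖ = 1)
    (hsurj : ∀ v : E, ⟪e, v⟫ = 0 → ∃ z, ι z = v) {b : ℝ} (hb : b ≠ 0) (v : E) :
    ∃ (a : ℝ) (z : F), v = a • e + b • ι z := by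
  obtain ⟨z, hz⟩ := hsurj (v - ⟪e, v⟫ • e) (by
    rw [inner_sub_right, real_inner_smul_right, real_inner_self_eq_norm_sq, he]
    ring)
  refine ⟨⟪e, v⟫, b⁻¹ • z, ?_⟩
  rw [map_smul, smul_inv_smul₀ hb, hz]
  abel

/-- The cone over a ball of radius `k` seen in coordinates along and across `e`. -/
theorem near_value {c h k δ m Dz Z Y : ℝ} (hh : 0 < h) (hk : 0 < k) (hδ : 0 < δ)
    (hm5 : m ≤ 5 * c * Y ^ 2)
    (hv : h + δ * Dz ≤ (k + δ * m) / k * (h + δ * Z ^ 2 / (2 * h))) :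
    Dz - Z ^ 2 / (2 * h) ≤ h / k * m + δ * (Z ^ 2 * (5 * c * Y ^ 2) / (2 * h * k)) := by
  have h2 : (k + δ * m) / k * (h + δ * Z ^ 2 / (2 * h)) =
      h + δ * (Z ^ 2 / (2 * h) + h / k * m + δ * m * Z ^ 2 / (2 * h * k)) := by
    field_simp
    ring
  rw [h2] at hv
  have h3 := le_of_mul_le_mul_left (by linarith : δ * Dz ≤
    δ * (Z ^ 2 / (2 * h) + h / k * m + δ * m * Z ^ 2 / (2 * h * k))) hδ
  have h4 : δ * m * Z ^ 2 / (2 * h * k) ≤ δ * (Z ^ 2 * (5 * c * Y ^ 2) / (2 * h * k)) := by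
    rw [mul_div_assoc' δ, mul_comm (Z ^ 2) (5 * c * Y ^ 2), ← mul_assoc]
    refine div_le_div_of_nonneg_right ?_ (by positivity)
    exact mul_le_mul_of_nonneg_right (mul_le_mul_of_nonneg_left hm5 hδ.le) (sq_nonneg _)
  linarith

/-- Squares of shifted radii. -/
theorem shifted_sq (y ζ : F) : (1 + ‖y + ζ‖) ^ 2 ≤ 2 * (1 + ‖y‖) ^ 2 + 2 * ‖ζ‖ ^ 2 := by
  have := pow_le_pow_left₀ (by positivity)
    (show 1 + ‖y + ζ‖ ≤ (1 + ‖y‖) + ‖ζ‖ by linarith [norm_add_le y ζ]) 2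
  linarith [sq_nonneg (1 + ‖y‖ - ‖ζ‖)]

/-- One step at finite `δ`: the increase at the step `h` against a competitor at the step `k`. -/
theorem finite_step (he : ‖e‖ = 1) (hι : ∀ z, ⟪e, ι z⟫ = 0)
    (hsurj : ∀ v : E, ⟪e, v⟫ = 0 → ∃ z, ι z = v) {u : E → ℝ} {δ : ℝ} (hδ : 0 < δ)
    (hcont : ContinuousOn u (ball (0 : E) 8))
    (hsub : ∀ z ∈ ball (0 : E) 8, ∀ φ : E → ℝ, ContDiff ℝ 2 φ →
      IsLocalMax (fun y => u y - φ y) z →
        0 ≤ fderiv ℝ (fderiv ℝ φ) z (gradient φ z) (gradient φ z))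
    {W : ℝ → F → ℝ} (hW : ∀ t ξ, u (t • e + Real.sqrt δ • ι ξ) = u 0 + t + δ * W t ξ)
    {T c : ℝ} (hc : 0 ≤ c) (hg : ∀ t ξ, |t| ≤ T → Real.sqrt δ * ‖ξ‖ ≤ T →
      |W t ξ| ≤ c * (1 + ‖ξ‖) ^ 2)
    {t h k : ℝ} {y z : F} (hh : 0 < h) (hk : 0 < k) (hck : 16 * c * k ≤ 1)
    (hT1 : T ≤ 1) (ht : ∀ a : ℝ, |a| ≤ k → |t + a| ≤ T)
    (hy : Real.sqrt δ * ‖y‖ + k ≤ T) (hz : h ^ 2 + δ * ‖z‖ ^ 2 ≤ k ^ 2) :
    ∃ (τ : ℝ) (ζ : F), |τ| ≤ k ∧ ‖ζ‖ ≤ 1 + ‖y‖ ∧ k - τ ≤ δ * (7 * c * (1 + ‖y‖) ^ 2) ∧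
      W (t + h) (y + z) - W t y - ‖z‖ ^ 2 / (2 * h) ≤
        h / k * (W (t + τ) (y + ζ) - W t y - ‖ζ‖ ^ 2 / (2 * k))
          + δ * (‖z‖ ^ 2 * (5 * c * (1 + ‖y‖) ^ 2) / (2 * h * k)) := by
  set s := Real.sqrt δ with hs
  have hs0 : 0 < s := Real.sqrt_pos.2 hδ
  have hs2 : s ^ 2 = δ := Real.sq_sqrt hδ.le
  set x := t • e + s • ι y with hx
  have htT : |t| ≤ T := by simpa using ht 0 (by simp [hk.le])
  have hxn : ‖x‖ ≤ |t| + s * ‖y‖ := by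
    refine (norm_add_le _ _).trans (le_of_eq ?_)
    rw [norm_smul, norm_smul, he, ι.norm_map, mul_one, Real.norm_eq_abs,
      Real.norm_of_nonneg hs0.le]
  have hball : closedBall x k ⊆ ball (0 : E) 8 := fun v hv => by
    rw [mem_closedBall, dist_eq_norm] at hv
    rw [mem_ball_zero_iff]
    linarith [norm_le_norm_add_norm_sub' v x]
  obtain ⟨q, hq, hqmax⟩ := (isCompact_closedBall x k).exists_isMaxOn
    ⟨x, mem_closedBall_self hk.le⟩ (hcont.mono hball)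
  rw [isMaxOn_iff] at hqmax
  rw [mem_closedBall, dist_eq_norm] at hq
  obtain ⟨τ, ζ, hqe⟩ := exists_axes he hsurj hs0.ne' (q - x)
  have hball' : τ ^ 2 + δ * ‖ζ‖ ^ 2 ≤ k ^ 2 := by
    have := pow_le_pow_left₀ (norm_nonneg _) hq 2
    rwa [hqe, norm_sq_axes he hι, hs2] at this
  have hsζ : s * ‖ζ‖ ≤ k := by
    refine (abs_le_of_sq_le_sq' ?_ hk.le).2
    rw [mul_pow, hs2]
    linarith [sq_nonneg τ]
  have hup : ∀ (a : ℝ) (b : F), u (x + (a • e + s • ι b)) - u x =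
      a + δ * (W (t + a) (y + b) - W t y) := fun a b => by
    rw [show x + (a • e + s • ι b) = (t + a) • e + s • ι (y + b) by
      rw [hx, map_add]; module, hW, hx, hW]
    ring
  have hM := hup τ ζ
  rw [← hqe, add_sub_cancel] at hM
  set Δ := W (t + τ) (y + ζ) - W t y with hΔ
  set m := (u q - u x - k) / δ with hm
  have hme : δ * m = u q - u x - k := mul_div_cancel₀ _ hδ.ne'
  have hτk : |τ| ≤ k :=
    abs_le_of_sq_le_sq (by linarith [mul_nonneg hδ.le (sq_nonneg ‖ζ‖)]) hk.le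
  have hg0 := abs_le.1 (hg t y htT (by linarith))
  have hg1 := abs_le.1 (hg (t + τ) (y + ζ) (ht τ hτk) (by
    have := mul_le_mul_of_nonneg_left (norm_add_le y ζ) hs0.le
    linarith))
  have hg2 := abs_le.1 (hg (t + k) y (ht k (by rw [abs_of_pos hk])) (by linarith))
  have h2c := mul_le_mul_of_nonneg_left (shifted_sq y ζ) hc
  have hΔup : Δ ≤ 2 * c * ‖ζ‖ ^ 2 + 3 * c * (1 + ‖y‖) ^ 2 := by linarith [hg1.2, hg0.1]
  have hlow : -(2 * c * (1 + ‖y‖) ^ 2) ≤ m := by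
    have h1 := hqmax (x + (k • e + s • ι 0)) (by
      rw [mem_closedBall, dist_eq_norm, add_sub_cancel_left, map_zero, smul_zero, add_zero,
        norm_smul, he, mul_one, Real.norm_of_nonneg hk.le])
    have h2 := hup k 0
    rw [add_zero y] at h2
    have h3 : δ * (W (t + k) y - W t y) ≤ δ * m := by linarith
    linarith [le_of_mul_le_mul_left h3 hδ, hg2.1, hg0.2]
  obtain ⟨-, hm1, hζY, hτd, hm5⟩ := maximiser_bounds (Δ := Δ) (τ := τ) hc hk hck hδ hball'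
    (by linarith) hΔup hlow
  refine ⟨τ, ζ, hτk, (abs_le_of_sq_le_sq' hζY (by positivity)).2, hτd, ?_⟩
  set a := (u q - u x) / k with ha
  have hM0 : 0 ≤ u q - u x := by linarith [hqmax x (mem_closedBall_self hk.le)]
  have hnv : ‖h • e + s • ι z‖ ≤ h + δ * ‖z‖ ^ 2 / (2 * h) := by
    refine (abs_le_of_sq_le_sq' ?_ (by positivity)).2
    rw [norm_sq_axes he hι, hs2]
    have : (h + δ * ‖z‖ ^ 2 / (2 * h)) ^ 2 =
        h ^ 2 + δ * ‖z‖ ^ 2 + (δ * ‖z‖ ^ 2 / (2 * h)) ^ 2 := by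
      field_simp
      ring
    linarith [sq_nonneg (δ * ‖z‖ ^ 2 / (2 * h))]
  have hcone := cone_le hcont hsub (c := x) (a := a) (b := u x) (r := k) hball
    (div_nonneg hM0 hk.le) le_rfl (fun v hv => by
      rw [div_mul_cancel₀ _ hk.ne']
      linarith [hqmax v (sphere_subset_closedBall hv)])
    (x := x + (h • e + s • ι z)) (by
      rw [dist_eq_norm, add_sub_cancel_left]
      refine (abs_le_of_sq_le_sq' ?_ hk.le).2
      rw [norm_sq_axes he hι, hs2]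
      exact hz)
  rw [dist_eq_norm, add_sub_cancel_left] at hcone
  have hV := hup h z
  have h1 : h + δ * (W (t + h) (y + z) - W t y) ≤
      (k + δ * m) / k * (h + δ * ‖z‖ ^ 2 / (2 * h)) := by
    rw [show k + δ * m = u q - u x by linarith, ← ha]
    exact le_trans (by linarith) (mul_le_mul_of_nonneg_left hnv (div_nonneg hM0 hk.le))
  refine (near_value hh hk hδ hm5 h1).trans ?_
  linarith [mul_le_mul_of_nonneg_left hm1 (div_nonneg hh.le hk.le)]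

/-- Monotone slopes of the limit, for a general lateral space. -/
theorem mono_limit (he : ‖e‖ = 1) (hι : ∀ z, ⟪e, ι z⟫ = 0)
    (hsurj : ∀ v : E, ⟪e, v⟫ = 0 → ∃ z, ι z = v)
    {u : ℕ → E → ℝ} {δ : ℕ → ℝ} (hδ : ∀ n, 0 < δ n) (hδ0 : Tendsto δ atTop (𝓝 0))
    (hcont : ∀ n, ContinuousOn (u n) (ball (0 : E) 8))
    (hsub : ∀ n, ∀ z ∈ ball (0 : E) 8, ∀ φ : E → ℝ, ContDiff ℝ 2 φ →
      IsLocalMax (fun y => u n y - φ y) z →
        0 ≤ fderiv ℝ (fderiv ℝ φ) z (gradient φ z) (gradient φ z))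
    {W : ℕ → ℝ → F → ℝ} {w : ℝ → F → ℝ}
    (hW : ∀ n t ξ, u n (t • e + Real.sqrt (δ n) • ι ξ) = u n 0 + t + δ n * W n t ξ)
    {T₁ T₂ h₀ c : ℝ} (hc : 0 ≤ c) (hch : 16 * c * h₀ ≤ 1) (hh₀ : 0 < h₀)
    (hT : T₂ + 2 * h₀ ≤ T₁) (hT1 : T₁ ≤ 1)
    (hconv : ∀ B : ℝ, TendstoUniformlyOn (fun n (X : ℝ × F) => W n X.1 X.2)
      (fun X => w X.1 X.2) atTop (Icc (-T₁) T₁ ×ˢ closedBall 0 B))
    (hgrow : ∀ᶠ n in atTop, ∀ t ξ, |t| ≤ T₁ → Real.sqrt (δ n) * ‖ξ‖ ≤ T₁ →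
      |W n t ξ| ≤ c * (1 + ‖ξ‖) ^ 2) :
    LocMono T₂ h₀ w := by
  intro t y h k hh hhk hk₀ ht1 ht2
  have hk : 0 < k := hh.trans_le hhk
  rcases eq_or_lt_of_le hhk with rfl | hlt
  · exact le_rfl
  have hck : 16 * c * k ≤ 1 :=
    (mul_le_mul_of_nonneg_left hk₀ (by positivity)).trans hch
  have hT2 : 0 < T₂ := by linarith
  have habs : ∀ τ : ℝ, |τ| ≤ k → |t + τ| ≤ T₁ := fun τ hτ => by
    obtain ⟨a, b⟩ := abs_le.1 hτ
    exact abs_le.2 ⟨by linarith, by linarith⟩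
  have ht : |t| ≤ T₁ := by simpa using habs 0 (by simp [hk.le])
  have hs0 : Tendsto (fun n => Real.sqrt (δ n)) atTop (𝓝 0) := by
    have h := (Real.continuous_sqrt.tendsto 0).comp hδ0
    rw [Real.sqrt_zero] at h
    exact h
  have hsmall : ∀ z : F, ∀ B : ℝ, 0 < B → ∀ᶠ n in atTop, Real.sqrt (δ n) * ‖z‖ < B := fun z B hB =>
    (tendsto_order.1 (by simpa using hs0.mul_const ‖z‖)).2 B hB
  have hpt : ∀ (τ : ℝ) (ξ : F), |τ| ≤ T₁ → Tendsto (fun n => W n τ ξ) atTop (𝓝 (w τ ξ)) :=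
    fun τ ξ hτ => (hconv ‖ξ‖).tendsto_at (x := (τ, ξ))
      ⟨abs_le.1 hτ, mem_closedBall_zero_iff.2 le_rfl⟩
  -- growth and continuity of the limit
  have hgw : ∀ (τ : ℝ) (ξ : F), |τ| ≤ T₁ → |w τ ξ| ≤ c * (1 + ‖ξ‖) ^ 2 := fun τ ξ hτ => by
    refine le_of_tendsto (hpt τ ξ hτ).abs ?_
    filter_upwards [hgrow, hsmall ξ T₁ (by linarith)] with n hn hξ
    exact hn τ ξ hτ hξ.le
  have hwc : ∀ B : ℝ, ContinuousOn (fun X : ℝ × F => w X.1 X.2)
      (Icc (-T₁) T₁ ×ˢ closedBall 0 B) := fun B => by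
    refine (hconv B).continuousOn (Eventually.frequently ?_)
    filter_upwards [hsmall 0 1 one_pos, (tendsto_order.1 hs0).2 (1 / (1 + |B|)) (by positivity)]
      with n _ hn
    have hWe : (fun X : ℝ × F => W n X.1 X.2) =
        fun X => (u n (X.1 • e + Real.sqrt (δ n) • ι X.2) - u n 0 - X.1) / δ n := by
      funext X
      rw [hW, eq_div_iff (hδ n).ne']
      ring
    rw [hWe]
    refine ((((hcont n).comp (by fun_prop) fun X hX => ?_).sub continuousOn_const).sub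
      continuous_fst.continuousOn).div_const _
    obtain ⟨hX1, hX2⟩ := hX
    rw [mem_closedBall_zero_iff] at hX2
    rw [mem_ball_zero_iff]
    refine (norm_add_le _ _).trans_lt ?_
    rw [norm_smul, norm_smul, he, ι.norm_map, mul_one, Real.norm_eq_abs,
      Real.norm_of_nonneg (Real.sqrt_nonneg _)]
    have h1 : Real.sqrt (δ n) * ‖X.2‖ ≤ 1 / (1 + |B|) * (1 + |B|) :=
      mul_le_mul hn.le (hX2.trans (by linarith [le_abs_self B])) (norm_nonneg _) (by positivity)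
    rw [div_mul_cancel₀ _ (by positivity)] at h1
    linarith [abs_le.2 ⟨hX1.1, hX1.2⟩]
  -- the value at the far step
  set P := hlP w k t y with hP
  set Y := 1 + ‖y‖ with hY
  have hbdd : BddAbove (range fun z => w (t + k) (y + z) - ‖z‖ ^ 2 / (2 * k)) := by
    refine ⟨2 * c * Y ^ 2, ?_⟩
    rintro _ ⟨z, rfl⟩
    have h1 := (abs_le.1 (hgw (t + k) (y + z) (habs k (by rw [abs_of_pos hk])))).2
    have h2 : (1 + ‖y + z‖) ^ 2 ≤ 2 * Y ^ 2 + 2 * ‖z‖ ^ 2 := by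
      have := pow_le_pow_left₀ (by positivity)
        (show 1 + ‖y + z‖ ≤ Y + ‖z‖ by linarith [norm_add_le y z]) 2
      nlinarith [sq_nonneg (Y - ‖z‖)]
    have h3 : 2 * c * ‖z‖ ^ 2 ≤ ‖z‖ ^ 2 / (2 * k) := by
      rw [le_div_iff₀ (by positivity)]
      nlinarith [mul_le_mul_of_nonneg_right hck (sq_nonneg ‖z‖), sq_nonneg ‖z‖]
    have h4 := mul_le_mul_of_nonneg_left h2 hc
    simp only
    linarith
  set D := P - w t y with hD
  have key : ∀ z : F, w (t + h) (y + z) - ‖z‖ ^ 2 / (2 * h) - w t y ≤ h / k * D := by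
    intro z
    set Bm := 5 * c * Y ^ 2 with hBm
    have hBm0 : 0 ≤ Bm := by positivity
    have hlim : Tendsto (fun n => W n (t + h) (y + z) - W n t y - ‖z‖ ^ 2 / (2 * h)
        - δ n * (‖z‖ ^ 2 * Bm / (2 * h * k))) atTop
        (𝓝 (w (t + h) (y + z) - ‖z‖ ^ 2 / (2 * h) - w t y)) := by
      have h1 := ((hpt (t + h) (y + z) (habs h (by rw [abs_of_pos hh]; linarith))).sub
        (hpt t y ht)).sub_const (‖z‖ ^ 2 / (2 * h))
      have h2 := h1.sub (hδ0.mul_const (‖z‖ ^ 2 * Bm / (2 * h * k)))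
      simpa [sub_right_comm] using h2
    refine le_of_forall_pos_le_add fun ε hε => le_of_tendsto hlim ?_
    set B := ‖y‖ + Y with hB
    have hB0 : 0 ≤ B := by positivity
    obtain ⟨η, hη, hηc⟩ := Metric.uniformContinuousOn_iff.1
      ((isCompact_Icc.prod (isCompact_closedBall (0 : F) B)).uniformContinuousOn_of_continuous
        (hwc B)) (ε / 4) (by positivity)
    have hz2 : 0 < k ^ 2 - h ^ 2 := by nlinarith
    filter_upwards [hgrow, (Metric.tendstoUniformlyOn_iff.1 (hconv B)) (ε / 4) (by positivity),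
      (tendsto_order.1 (show Tendsto (fun n => δ n * (7 * c * Y ^ 2)) atTop (𝓝 0) by
        simpa using hδ0.mul_const (7 * c * Y ^ 2))).2 η hη,
      (tendsto_order.1 (show Tendsto (fun n => δ n * ‖z‖ ^ 2) atTop (𝓝 0) by
        simpa using hδ0.mul_const (‖z‖ ^ 2))).2 _ hz2,
      hsmall y h₀ hh₀] with n hg hun hηn hzn hyn
    obtain ⟨τ, ζ, hτk, hζ, hτd, hmain⟩ := finite_step he hι hsurj (hδ n) (hcont n) (hsub n) (hW n)
      hc hg (t := t) (y := y) (z := z) hh hk hck hT1 habs (by linarith) (by linarith)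
    have hmem : ∀ a : ℝ, |a| ≤ k → ∀ b : F, ‖b‖ ≤ Y →
        (t + a, y + b) ∈ Icc (-T₁) T₁ ×ˢ closedBall (0 : F) B := fun a ha b hb =>
      ⟨abs_le.1 (habs a ha), mem_closedBall_zero_iff.2 (by linarith [norm_add_le y b])⟩
    have hw1 := hun _ (hmem τ hτk ζ hζ)
    have hw0 := hun _ (hmem 0 (by simp [hk.le]) 0 (by rw [norm_zero]; positivity))
    have hw2 := hηc _ (hmem τ hτk ζ hζ) _ (hmem k (by rw [abs_of_pos hk]) ζ hζ) (by
      rw [Prod.dist_eq]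
      simp only [dist_self, Real.dist_eq, add_sub_add_left_eq_sub]
      rw [max_eq_left (abs_nonneg _), abs_sub_comm,
        abs_of_nonneg (by linarith [(abs_le.1 hτk).2])]
      linarith)
    simp only [Real.dist_eq, add_zero] at hw1 hw0 hw2
    have hPle := le_csSup hbdd ⟨ζ, rfl⟩
    rw [← hlP, ← hP] at hPle
    obtain ⟨a1, a2⟩ := abs_lt.1 hw1
    obtain ⟨b1, b2⟩ := abs_lt.1 hw0
    obtain ⟨c1, c2⟩ := abs_lt.1 hw2
    have hmD : W n (t + τ) (y + ζ) - W n t y - ‖ζ‖ ^ 2 / (2 * k) ≤ D + ε := by linarith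
    have h6 := mul_le_mul_of_nonneg_left hmD (div_nonneg hh.le hk.le)
    have h7 : h / k * ε ≤ 1 * ε := mul_le_mul_of_nonneg_right ((div_le_one hk).2 hhk) hε.le
    linarith
  have hh1 : hlP w h t y - w t y ≤ h / k * D := by
    rw [sub_le_iff_le_add]
    exact csSup_le (range_nonempty _) (by rintro _ ⟨z, rfl⟩; linarith [key z])
  unfold Sp
  rw [← hP, ← hD, div_le_iff₀ hh]
  linarith [show D / k * h = h / k * D by ring]

/-- Monotone slopes of the first limit and of its mirror. -/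
theorem locMono_of_tendsto {e : E} (he : ‖e‖ = 1) {u : ℕ → E → ℝ} {δ : ℕ → ℝ}
    (hδ : ∀ n, 0 < δ n) (hδ0 : Tendsto δ atTop (𝓝 0)) (hv : ∀ n, Visc (ball 0 8) (u n))
    {w : ℝ → (ℝ ∙ e)ᗮ → ℝ} {T₁ T₂ h₀ c : ℝ} (hc : 0 ≤ c) (hch : 16 * c * h₀ ≤ 1) (hh₀ : 0 < h₀)
    (hT : T₂ + 2 * h₀ ≤ T₁) (hT1 : T₁ ≤ 1)
    (hconv : ∀ B : ℝ, TendstoUniformlyOn
      (fun n (X : ℝ × (ℝ ∙ e)ᗮ) => scaled (u n) 0 e 1 (δ n) X.1 X.2)
      (fun X => w X.1 X.2) atTop (Icc (-T₁) T₁ ×ˢ closedBall 0 B))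
    (hgrow : ∀ᶠ n in atTop, ∀ (t : ℝ) (ξ : (ℝ ∙ e)ᗮ), |t| ≤ T₁ → Real.sqrt (δ n) * ‖ξ‖ ≤ T₁ →
      |scaled (u n) 0 e 1 (δ n) t ξ| ≤ c * (1 + ‖ξ‖) ^ 2) :
    LocMono T₂ h₀ w ∧ LocMono T₂ h₀ (mir w) := by
  have hι : ∀ z : (ℝ ∙ e)ᗮ, ⟪e, ((ℝ ∙ e)ᗮ.subtypeₗᵢ z)⟫ = 0 := fun z =>
    Submodule.mem_orthogonal_singleton_iff_inner_right.1 z.2
  have hsurj : ∀ v : E, ⟪e, v⟫ = 0 → ∃ z, (ℝ ∙ e)ᗮ.subtypeₗᵢ z = v := fun v hv' =>
    ⟨⟨v, Submodule.mem_orthogonal_singleton_iff_inner_right.2 hv'⟩, rfl⟩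
  have hW : ∀ n (t : ℝ) (ξ : (ℝ ∙ e)ᗮ),
      u n (t • e + Real.sqrt (δ n) • (ℝ ∙ e)ᗮ.subtypeₗᵢ ξ) =
        u n 0 + t + δ n * scaled (u n) 0 e 1 (δ n) t ξ := fun n t ξ => by
    simp only [scaled, one_mul, one_smul, zero_add]
    rw [mul_div_cancel₀ _ (hδ n).ne']
    show u n (t • e + Real.sqrt (δ n) • (ξ : E)) = _
    ring
  refine ⟨mono_limit he hι hsurj hδ hδ0 (fun n => (hv n).cont) (fun n => (hv n).sub) hW hc hch hh₀
    hT hT1 hconv hgrow, ?_⟩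
  have hneg : ∀ z, ⟪-e, ((ℝ ∙ e)ᗮ.subtypeₗᵢ z)⟫ = 0 := fun z => by
    rw [inner_neg_left, hι, neg_zero]
  refine mono_limit (e := -e) (by rw [norm_neg, he]) hneg
    (fun v hv' => hsurj v (by rwa [inner_neg_left, neg_eq_zero] at hv')) hδ hδ0
    (u := fun n y => -u n y) (fun n => (hv n).cont.neg) (fun n z hz φ hφ hmax => ?_)
    (W := fun n => mir (scaled (u n) 0 e 1 (δ n))) (fun n t ξ => ?_) hc hch hh₀ hT hT1
    (fun B => ?_) ?_
  · have h := (hv n).sup z hz (fun y => -φ y) hφ.neg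
      (hmax.neg.congr (Eventually.of_forall fun y => by simp; ring))
    rw [infLap_neg] at h
    linarith
  · simp only [mir, smul_neg, ← neg_smul, hW]
    ring
  · rw [Metric.tendstoUniformlyOn_iff]
    intro ε hε
    filter_upwards [Metric.tendstoUniformlyOn_iff.1 (hconv B) ε hε] with n hn X hX
    obtain ⟨⟨h1, h2⟩, h3⟩ := hX
    have := hn (-X.1, X.2) ⟨⟨by linarith, by linarith⟩, h3⟩
    simp only [mir, dist_neg_neg]
    exact this
  · filter_upwards [hgrow] with n hn t ξ ht hξ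
    simp only [mir, abs_neg]
    exact hn (-t) ξ (by rwa [abs_neg]) hξ

end Vale.Agent.P080.C1
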