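import Vale.Agent.P080.C1.Loc.Extract
import Vale.Agent.P080.C1.Loc.DictMono
import Vale.Agent.P080.C1.Loc.DictBarrier

/-!
B4: the first limit lies in the class `K1`.
-/

namespace Vale.Agent.P080.C1

open Metric Set Filter Topology
open scoped RealInnerProductSpace

set_option linter.unusedSectionVars false

variable {E : Type*} [NormedAddCommGroup E] [InnerProductSpace ℝ E] [FiniteDimensional ℝ E]
variable {F : Type*} [NormedAddCommGroup F] [InnerProductSpace ℝ F] [FiniteDimensional ℝ F]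

/-- The first limit. -/
theorem first_limit : ∃ T₀ h₀ C : ℝ, 0 < T₀ ∧ 0 < h₀ ∧ 0 < C ∧ ∀ {e : E}, ‖e‖ = 1 →
    ∀ (u : ℕ → E → ℝ) (δ : ℕ → ℝ), (∀ n, 0 < δ n) → Tendsto δ atTop (𝓝 0) →
      (∀ n, Visc (ball 0 8) (u n)) → (∀ n, Flat₁ (u n) (δ n)) →
      (∀ n, FitWin (u n) 0 e 1 (δ n)) →
      ∃ (φ : ℕ → ℕ) (w : ℝ → (ℝ ∙ e)ᗮ → ℝ), StrictMono φ ∧ LocProf T₀ h₀ C w ∧
        ∀ B : ℝ, TendstoUniformlyOn
          (fun n (X : ℝ × (ℝ ∙ e)ᗮ) => scaled (u (φ n)) 0 e 1 (δ (φ n)) X.1 X.2)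
          (fun X => w X.1 X.2) atTop (Icc (-(T₀ / 2)) (T₀ / 2) ×ˢ closedBall 0 B) := by
  obtain ⟨Te, Ce, hTe, hTe1, hCe, hex⟩ := first_extract (E := E)
  obtain ⟨Tc, δc, c, hTc, -, hδc, hc, hchain⟩ := chain_bound (E := E)
  -- the interval of the monotonicity, the class's interval and the largest step
  set T₁ := min (3 * Te / 4) Tc with hT₁def
  have hT₁ : 0 < T₁ := lt_min (by linarith) hTc
  have hT₁e : T₁ < Te := (min_le_left _ _).trans_lt (by linarith)
  set h₀ := min (T₁ / 4) (1 / (16 * c)) with hh₀def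
  have hh₀ : 0 < h₀ := lt_min (by positivity) (by positivity)
  refine ⟨T₁ / 2, h₀, Ce, by positivity, hh₀, hCe,
    fun {e} he u δ hδ hlim hv hflat hfit => ?_⟩
  obtain ⟨φ, w, hφ, hcont, hzero, hgrow, hsl, hconv⟩ := hex he u δ hδ hlim hv hflat hfit
  have hlim' : Tendsto (fun n => δ (φ n)) atTop (𝓝 0) := hlim.comp hφ.tendsto_atTop
  have hsub : ∀ (T : ℝ), T < Te → ∀ B : ℝ,
      Icc (-T) T ×ˢ closedBall (0 : (ℝ ∙ e)ᗮ) B ⊆ Ioo (-Te) Te ×ˢ univ := fun T hT B =>
    prod_mono (Icc_subset_Ioo (by linarith) hT) (subset_univ _)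
  have hcompact : ∀ (T B : ℝ), IsCompact (Icc (-T) T ×ˢ closedBall (0 : (ℝ ∙ e)ᗮ) B) :=
    fun T B => isCompact_Icc.prod (isCompact_closedBall 0 B)
  have hT0 : T₁ / 2 < Te := by linarith
  have hmono := locMono_of_tendsto he (u := fun n => u (φ n)) (δ := fun n => δ (φ n))
    (fun n => hδ _) hlim' (fun n => hv _) (w := w) (T₁ := T₁) (T₂ := T₁ / 2) (h₀ := h₀) (c := c)
    hc.le
    (by
      have h : h₀ ≤ 1 / (16 * c) := min_le_right _ _
      rw [le_div_iff₀ (by positivity)] at h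
      linarith)
    hh₀ (by linarith [min_le_left (T₁ / 4) (1 / (16 * c))]) (by linarith)
    (fun B => hconv _ (hcompact T₁ B) (hsub T₁ hT₁e B))
    ((hlim'.eventually_le_const hδc).mono fun n hn t ξ ht hξ =>
      (hchain (hδ _) hn he (hflat _) (hfit _) t ξ (ht.trans (min_le_right _ _))
        (hξ.trans (min_le_right _ _))).1)
  have hbar := locBarrier_of_tendsto he (u := fun n => u (φ n)) (δ := fun n => δ (φ n))
    (fun n => hδ _) hlim' (fun n => hv _) (T₀ := T₁ / 2) (by linarith) (w := w)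
    (fun K hK hKS => hconv K hK (hKS.trans
      (prod_mono (Ioo_subset_Ioo (by linarith) hT0.le) subset_rfl)))
  exact ⟨φ, w, hφ,
    { cont := hcont.mono (prod_mono (Ioo_subset_Ioo (by linarith) hT0.le) subset_rfl)
      zero := hzero
      growth := fun t y ht => hgrow t y (ht.trans hT0)
      slices := fun t y z ht hz => hsl t y z (ht.trans hT0) hz
      mono := hmono.1
      mono_mir := hmono.2
      barrier := hbar.1
      barrier_mir := hbar.2 },
    fun B => hconv _ (hcompact _ B) (hsub _ (by linarith) B)⟩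

end Vale.Agent.P080.C1
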