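import Vale.Agent.P080.C1.Loc.Defs
import Vale.Agent.P080.C1.Zygmund

/-!
B2: the chain of unit windows, in window coordinates.
-/

namespace Vale.Agent.P080.C1

open Metric Set Filter Topology
open scoped RealInnerProductSpace

set_option linter.unusedSectionVars false

variable {E : Type*} [NormedAddCommGroup E] [InnerProductSpace ℝ E] [FiniteDimensional ℝ E]
variable {F : Type*} [NormedAddCommGroup F] [InnerProductSpace ℝ F] [FiniteDimensional ℝ F]

/-- The orthogonal projection is the nearest multiple. -/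
theorem norm_lat_le {p : E} (hp : p ≠ 0) (d : E) (a : ℝ) :
    ‖d - (⟪p, d⟫ / ‖p‖ ^ 2) • p‖ ≤ ‖d - a • p‖ := by
  have hn : ‖p‖ ≠ 0 := norm_ne_zero_iff.2 hp
  rw [← pow_le_pow_iff_left₀ (norm_nonneg _) (norm_nonneg _) two_ne_zero, norm_sub_sq_real,
    norm_sub_sq_real, real_inner_smul_right, real_inner_smul_right, norm_smul, norm_smul,
    mul_pow, mul_pow, Real.norm_eq_abs, Real.norm_eq_abs, sq_abs, sq_abs, real_inner_comm p d]
  have e : (⟪p, d⟫ / ‖p‖ ^ 2) ^ 2 * ‖p‖ ^ 2 = ⟪p, d⟫ / ‖p‖ ^ 2 * ⟪p, d⟫ := by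
    field_simp
  have e2 : 0 ≤ (⟪p, d⟫ / ‖p‖ - a * ‖p‖) ^ 2 := sq_nonneg _
  have e3 : (⟪p, d⟫ / ‖p‖ - a * ‖p‖) ^ 2 =
      ⟪p, d⟫ / ‖p‖ ^ 2 * ⟪p, d⟫ - 2 * (a * ⟪p, d⟫) + a ^ 2 * ‖p‖ ^ 2 := by
    field_simp
    ring
  linarith

/-- Two windows, the second centred in the half of the first cylinder. -/
theorem FitWin.neighbour {u : E → ℝ} {x y p q : E} {T δ : ℝ} (hp : FitWin u x p T δ)
    (hq : FitWin u y q T δ) (hp1 : 1 / 16 ≤ ‖p‖) (hp2 : ‖p‖ ≤ 16) (hq1 : 1 / 16 ≤ ‖q‖)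
    (hq2 : ‖q‖ ≤ 16) (hT : 0 < T) (hδ : 0 < δ) (hδ4 : δ ≤ 1 / 4)
    (hlon : |⟪p, y - x⟫| ≤ T / 2 * ‖p‖)
    (hlat : ‖y - x - (⟪p, y - x⟫ / ‖p‖ ^ 2) • p‖ ≤ 2 * T * Real.sqrt δ) :
    ‖q - p‖ ≤ 48 * Real.sqrt δ ∧ |‖q‖ - ‖p‖| ≤ 3200000 * δ := by
  have hs : 0 < Real.sqrt δ := Real.sqrt_pos.2 hδ
  have hsq := Real.mul_self_sqrt hδ.le
  have hs2 : Real.sqrt δ ≤ 1 / 2 := by nlinarith
  have hpp : (0 : ℝ) < ‖p‖ := by linarith
  have hqq : (0 : ℝ) < ‖q‖ := by linarith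
  have hpne : p ≠ 0 := norm_pos_iff.1 hpp
  have hqne : q ≠ 0 := norm_pos_iff.1 hqq
  set d := y - x with hd
  have hy : y = x + d := by rw [hd, add_sub_cancel]
  have hTs : 0 ≤ T * Real.sqrt δ := by positivity
  have key : ∀ w : E, |⟪p, w⟫| ≤ T / 2 * ‖p‖ →
      ‖w - (⟪p, w⟫ / ‖p‖ ^ 2) • p‖ ≤ 2 * T * Real.sqrt δ → |⟪q, w⟫| ≤ T * ‖q‖ →
      ‖w - (⟪q, w⟫ / ‖q‖ ^ 2) • q‖ ≤ 4 * T * Real.sqrt δ →
      |⟪q - p, w⟫| ≤ 48 * δ * T := by
    intro w h1 h2 h3 h4
    have a1 := hp d (hlon.trans (by nlinarith)) (hlat.trans (by linarith))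
    have a2 := hp (d + w) (by
      rw [inner_add_right]
      exact (abs_add_le _ _).trans (by linarith)) (by
      have : d + w - (⟪p, d + w⟫ / ‖p‖ ^ 2) • p =
          (d - (⟪p, d⟫ / ‖p‖ ^ 2) • p) + (w - (⟪p, w⟫ / ‖p‖ ^ 2) • p) := by
        rw [inner_add_right, add_div, add_smul]
        abel
      rw [this]
      exact (norm_add_le _ _).trans (by linarith))
    have a3 := hq w h3 h4
    rw [← add_assoc, ← hy, inner_add_right] at a2
    rw [← hy] at a1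
    have hdT : 0 ≤ δ * T := by positivity
    have := mul_le_mul_of_nonneg_left hp2 hdT
    have := mul_le_mul_of_nonneg_left hq2 hdT
    obtain ⟨a11, a12⟩ := abs_le.1 a1
    obtain ⟨a21, a22⟩ := abs_le.1 a2
    obtain ⟨a31, a32⟩ := abs_le.1 a3
    rw [inner_sub_left]
    exact abs_le.2 ⟨by linarith, by linarith⟩
  have hsmall : ‖q - p‖ ≤ 48 * Real.sqrt δ := by
    rcases eq_or_ne q p with rfl | hne
    · rw [sub_self, norm_zero]
      positivity
    have hqp : 0 < ‖q - p‖ := norm_pos_iff.2 (sub_ne_zero.2 hne)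
    set w := (T * Real.sqrt δ / ‖q - p‖) • (q - p) with hw
    have hnw : ‖w‖ = T * Real.sqrt δ := by
      rw [hw, norm_smul, Real.norm_of_nonneg (by positivity), div_mul_cancel₀ _ hqp.ne']
    have hin : ∀ r : E, |⟪r, w⟫| ≤ T / 2 * ‖r‖ := fun r => by
      refine (abs_real_inner_le_norm r w).trans ?_
      rw [hnw, mul_comm (T / 2) ‖r‖]
      exact mul_le_mul_of_nonneg_left (by nlinarith) (norm_nonneg r)
    have hl : ∀ r : E, r ≠ 0 → ‖w - (⟪r, w⟫ / ‖r‖ ^ 2) • r‖ ≤ T * Real.sqrt δ := fun r hr => by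
      simpa [hnw] using norm_lat_le hr w 0
    have h := key w (hin p) ((hl p hpne).trans (by linarith))
      ((hin q).trans (by nlinarith)) ((hl q hqne).trans (by linarith))
    rw [hw, real_inner_smul_right, real_inner_self_eq_norm_sq,
      show T * Real.sqrt δ / ‖q - p‖ * ‖q - p‖ ^ 2 = T * Real.sqrt δ * ‖q - p‖ by
        field_simp, abs_of_nonneg (by positivity)] at h
    refine le_of_mul_le_mul_left ?_ (mul_pos hT hs)
    rw [show T * Real.sqrt δ * (48 * Real.sqrt δ) = 48 * T * (Real.sqrt δ * Real.sqrt δ) by ring,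
      hsq]
    linarith
  refine ⟨hsmall, ?_⟩
  set w := (T / 256 / ‖p‖) • p with hw
  have hnw : ‖w‖ = T / 256 := by
    rw [hw, norm_smul, Real.norm_of_nonneg (by positivity), div_mul_cancel₀ _ hpp.ne']
  have h := key w ((abs_real_inner_le_norm p w).trans (by rw [hnw]; nlinarith)) (by
      refine (norm_lat_le hpne w (T / 256 / ‖p‖)).trans ?_
      rw [hw, sub_self, norm_zero]
      positivity)
    ((abs_real_inner_le_norm q w).trans (by rw [hnw]; nlinarith)) (by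
      refine (norm_lat_le hqne w (T / 256 / ‖p‖)).trans ?_
      rw [hw, ← smul_sub, norm_smul, Real.norm_of_nonneg (by positivity), norm_sub_rev]
      have : T / 256 / ‖p‖ ≤ T / 16 := by
        rw [div_le_iff₀ hpp]
        nlinarith
      have := mul_le_mul this hsmall (norm_nonneg _) (by positivity)
      linarith)
  have hin : |⟪q - p, p⟫| ≤ 196608 * δ := by
    rw [hw, real_inner_smul_right, abs_mul, abs_of_pos (show 0 < T / 256 / ‖p‖ by positivity)]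
      at h
    have h' : T / 256 * |⟪q - p, p⟫| ≤ 48 * δ * T * ‖p‖ := by
      have := mul_le_mul_of_nonneg_right h hpp.le
      calc T / 256 * |⟪q - p, p⟫| = T / 256 / ‖p‖ * |⟪q - p, p⟫| * ‖p‖ := by field_simp
        _ ≤ _ := by linarith
    refine le_of_mul_le_mul_left ?_ (show 0 < T / 256 by positivity)
    have := mul_le_mul_of_nonneg_left hp2 (show 0 ≤ 48 * δ * T by positivity)
    linarith
  have hid : ‖q‖ ^ 2 - ‖p‖ ^ 2 = ‖q - p‖ ^ 2 + 2 * ⟪q - p, p⟫ := by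
    have := norm_add_sq_real (q - p) p
    rw [sub_add_cancel] at this
    linarith
  have hq36 : ‖q - p‖ ^ 2 ≤ 2304 * δ := by
    have := pow_le_pow_left₀ (norm_nonneg _) hsmall 2
    rw [mul_pow, Real.sq_sqrt hδ.le] at this
    linarith
  have hprod : |‖q‖ - ‖p‖| * (‖q‖ + ‖p‖) ≤ 395520 * δ := by
    rw [← abs_of_pos (show 0 < ‖q‖ + ‖p‖ by positivity), ← abs_mul,
      show (‖q‖ - ‖p‖) * (‖q‖ + ‖p‖) = ‖q‖ ^ 2 - ‖p‖ ^ 2 by ring, hid]
    obtain ⟨i1, i2⟩ := abs_le.1 hin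
    exact abs_le.2 ⟨by linarith [sq_nonneg ‖q - p‖], by linarith⟩
  have := mul_le_mul_of_nonneg_left (show 1 / 8 ≤ ‖q‖ + ‖p‖ by linarith) (abs_nonneg (‖q‖ - ‖p‖))
  linarith

/-- A chain of windows along the segment to `t e + √δ η`. -/
theorem Flat₁.chain {u : E → ℝ} {δ : ℝ} (hflat : Flat₁ u δ) (hδ : 0 < δ)
    (hδ4 : δ ≤ 1 / 4) {e : E} (he : ‖e‖ = 1) (hp : FitWin u 0 e 1 δ)
    {t : ℝ} {η : E} (hη : ⟪e, η⟫ = 0) (ht : |t| ≤ 1 / 100)
    (hη2 : Real.sqrt δ * ‖η‖ ≤ 1 / 100) :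
    (∀ q : E, 1 / 16 ≤ ‖q‖ → ‖q‖ ≤ 16 →
      FitWin u (t • e + Real.sqrt δ • η) q 1 δ →
      ‖q - e‖ ≤ 144 * Real.sqrt δ * (1 + ‖η‖) ∧ |‖q‖ - 1| ≤ 9600000 * δ * (1 + ‖η‖)) ∧
    |u (t • e + Real.sqrt δ • η) - u 0 - t| ≤ 1240000 * δ * (1 + ‖η‖) ^ 2 := by
  have hsd : 0 < Real.sqrt δ := Real.sqrt_pos.2 hδ
  have hsq := Real.mul_self_sqrt hδ.le
  obtain ⟨N, hN1, hNη, hN2⟩ : ∃ N : ℕ, (1 : ℝ) ≤ N ∧ ‖η‖ ≤ N ∧ (N : ℝ) ≤ 2 * (1 + ‖η‖) := by
    refine ⟨⌈‖η‖⌉₊ + 1, by simp, ?_, ?_⟩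
    · push_cast
      linarith [Nat.le_ceil ‖η‖]
    · push_cast
      linarith [Nat.ceil_lt_add_one (norm_nonneg η), norm_nonneg η]
  have hN : (0 : ℝ) < N := by linarith
  set z := t • e + Real.sqrt δ • η with hz
  set d := (N : ℝ)⁻¹ • z with hddef
  have hnz : ‖z‖ ≤ 1 / 6 := by
    refine (norm_add_le _ _).trans ?_
    rw [norm_smul, norm_smul, Real.norm_eq_abs, Real.norm_eq_abs, abs_of_nonneg hsd.le, he,
      mul_one]
    linarith
  have hnd : ‖d‖ ≤ 1 / 6 := by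
    rw [hddef, norm_smul, Real.norm_of_nonneg (by positivity), inv_mul_le_iff₀ hN]
    nlinarith
  have main : ∀ j : ℕ, j ≤ N →
      (∀ q : E, 1 / 16 ≤ ‖q‖ → ‖q‖ ≤ 16 → FitWin u ((j : ℝ) • d) q 1 δ →
        ‖q - e‖ ≤ 48 * Real.sqrt δ * (j + 1) ∧ |‖q‖ - 1| ≤ 3200000 * δ * (j + 1)) ∧
      |u ((j : ℝ) • d) - u 0 - j * (t / N)| ≤ 310000 * δ * N * j := by
    intro j
    induction j with
    | zero =>
      intro _
      refine ⟨fun q h1 h2 h3 => ?_, by simp⟩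
      rw [Nat.cast_zero, zero_smul] at h3
      have := hp.neighbour h3 (by rw [he]; norm_num) (by rw [he]; norm_num)
        h1 h2 one_pos hδ hδ4 (by simp) (by
        simp only [sub_self, inner_zero_right, zero_div, zero_smul, norm_zero]
        positivity)
      simpa [he] using this
    | succ j ih =>
      intro hj
      obtain ⟨ih1, ih2⟩ := ih (by omega)
      have hj1 : (j : ℝ) + 1 ≤ N := by exact_mod_cast hj
      have hmem : (j : ℝ) • d ∈ ball (0 : E) 4 := by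
        rw [mem_ball_zero_iff, hddef, smul_smul, norm_smul, Real.norm_of_nonneg (by positivity)]
        refine (mul_le_of_le_one_left (norm_nonneg z) ?_).trans_lt (by linarith)
        rw [← div_eq_mul_inv, div_le_one hN]
        linarith
      obtain ⟨r, hr1, hr2, hwin⟩ := hflat _ hmem
      obtain ⟨hrp, hra⟩ := ih1 r hr1 hr2 hwin
      have hrr : (0 : ℝ) < ‖r‖ := by linarith
      have hlon : |⟪r, d⟫| ≤ 1 / 2 * ‖r‖ := by
        refine (abs_real_inner_le_norm r d).trans ?_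
        rw [mul_comm (1 / 2 : ℝ)]
        exact mul_le_mul_of_nonneg_left (by linarith) hrr.le
      have hcoef : |t / N| ≤ 1 / (100 * N) := by
        rw [abs_div, Nat.abs_cast, div_le_div_iff₀ (by positivity) (by positivity)]
        nlinarith
      have hlat : ‖d - (⟪r, d⟫ / ‖r‖ ^ 2) • r‖ ≤ 2 * 1 * Real.sqrt δ := by
        refine (norm_lat_le (norm_pos_iff.1 hrr) d (t / N)).trans ?_
        have hde : d - (t / N) • r =
            (t / N) • (e - r) + (Real.sqrt δ / N) • η := by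
          rw [hddef, hz]
          module
        rw [hde]
        refine (norm_add_le _ _).trans ?_
        rw [norm_smul, norm_smul, Real.norm_eq_abs, Real.norm_of_nonneg (by positivity),
          norm_sub_rev]
        have b1 : Real.sqrt δ / N * ‖η‖ ≤ Real.sqrt δ := by
          rw [div_mul_eq_mul_div, div_le_iff₀ hN]
          exact mul_le_mul_of_nonneg_left hNη hsd.le
        have b2 : |t / N| * ‖r - e‖ ≤ Real.sqrt δ := by
          refine (mul_le_mul hcoef hrp (norm_nonneg _) (by positivity)).trans ?_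
          rw [div_mul_eq_mul_div, div_le_iff₀ (by positivity), one_mul]
          nlinarith
        linarith
      have hnext : ((j + 1 : ℕ) : ℝ) • d = (j : ℝ) • d + d := by
        push_cast
        rw [add_smul, one_smul]
      refine ⟨fun q h1 h2 h3 => ?_, ?_⟩
      · rw [hnext] at h3
        obtain ⟨g1, g2⟩ := hwin.neighbour h3 hr1 hr2 h1 h2 one_pos hδ hδ4
          (by rwa [add_sub_cancel_left]) (by rwa [add_sub_cancel_left])
        push_cast
        constructor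
        · linarith [norm_sub_le_norm_sub_add_norm_sub q r e]
        · linarith [abs_sub_le ‖q‖ ‖r‖ 1]
      · rw [hnext]
        have hwd := hwin d (hlon.trans (by linarith)) (hlat.trans (by linarith))
        have hexp : ⟪r, d⟫ - t / N =
            t / N * ⟪r - e, e⟫ + Real.sqrt δ / N * ⟪r - e, η⟫ := by
          have e1 : ⟪r - e, e⟫ = ⟪r, e⟫ - 1 := by
            rw [inner_sub_left, real_inner_self_eq_norm_sq, he, one_pow]
          have e2 : ⟪r - e, η⟫ = ⟪r, η⟫ := by rw [inner_sub_left, hη, sub_zero]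
          rw [hddef, real_inner_smul_right, hz, inner_add_right, real_inner_smul_right,
            real_inner_smul_right, e1, e2]
          field_simp
          ring
        have hrp2 : ‖r - e‖ ^ 2 ≤ 2304 * δ * (j + 1) ^ 2 := by
          have := pow_le_pow_left₀ (norm_nonneg _) hrp 2
          rw [mul_pow, mul_pow, Real.sq_sqrt hδ.le] at this
          linarith
        have hin : |⟪r - e, e⟫| ≤ 30000000 * δ * N ^ 2 := by
          have hid : 2 * ⟪r - e, e⟫ = (‖r‖ - 1) * (‖r‖ + 1) - ‖r - e‖ ^ 2 := by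
            have := norm_add_sq_real (r - e) e
            rw [sub_add_cancel, he] at this
            linarith
          have hm : |(‖r‖ - 1) * (‖r‖ + 1)| ≤ 3200000 * δ * (j + 1) * 17 := by
            rw [abs_mul]
            exact mul_le_mul hra (abs_le.2 ⟨by linarith, by linarith⟩) (abs_nonneg _)
              (by positivity)
          have hjj : ((j : ℝ) + 1) ^ 2 ≤ (N : ℝ) ^ 2 := pow_le_pow_left₀ (by positivity) hj1 2
          have hjN : (j : ℝ) + 1 ≤ (N : ℝ) ^ 2 := hj1.trans (le_self_pow₀ hN1 two_ne_zero)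
          have := mul_le_mul_of_nonneg_left hjj hδ.le
          have := mul_le_mul_of_nonneg_left hjN hδ.le
          obtain ⟨m1, m2⟩ := abs_le.1 hm
          exact abs_le.2 ⟨by linarith [sq_nonneg ‖r - e‖], by linarith [sq_nonneg ‖r - e‖]⟩
        have hA : |t / N * ⟪r - e, e⟫| ≤ 300000 * δ * N := by
          rw [abs_mul]
          refine (mul_le_mul hcoef hin (abs_nonneg _) (by positivity)).trans ?_
          rw [div_mul_eq_mul_div, div_le_iff₀ (by positivity)]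
          nlinarith
        have hB : |Real.sqrt δ / N * ⟪r - e, η⟫| ≤ 48 * δ * N := by
          rw [abs_mul, abs_of_nonneg (show 0 ≤ Real.sqrt δ / N by positivity)]
          refine (mul_le_mul_of_nonneg_left ((abs_real_inner_le_norm _ _).trans
            (mul_le_mul (hrp.trans (mul_le_mul_of_nonneg_left hj1 (by positivity))) hNη
              (norm_nonneg _) (by positivity))) (by positivity)).trans (le_of_eq ?_)
          field_simp
          linear_combination hsq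
        have hδN : δ * 1 * ‖r‖ ≤ 16 * δ * N := by
          rw [mul_one]
          calc δ * ‖r‖ ≤ δ * 16 := mul_le_mul_of_nonneg_left hr2 hδ.le
            _ = 16 * δ * 1 := by ring
            _ ≤ 16 * δ * N := mul_le_mul_of_nonneg_left hN1 (by positivity)
        obtain ⟨a1, a2⟩ := abs_le.1 hA
        obtain ⟨b1, b2⟩ := abs_le.1 hB
        obtain ⟨c1, c2⟩ := abs_le.1 hwd
        obtain ⟨d1, d2⟩ := abs_le.1 ih2
        push_cast
        exact abs_le.2 ⟨by linarith, by linarith⟩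
  obtain ⟨m1, m2⟩ := main N le_rfl
  have hend : (N : ℝ) • d = z := by rw [hddef, smul_inv_smul₀ hN.ne']
  rw [hend] at m1 m2
  refine ⟨fun q h1 h2 h3 => ?_, ?_⟩
  · obtain ⟨g1, g2⟩ := m1 q h1 h2 h3
    have hη0 := norm_nonneg η
    have n3 : (N : ℝ) + 1 ≤ 3 * (1 + ‖η‖) := by linarith
    have := mul_le_mul_of_nonneg_left n3 hsd.le
    have := mul_le_mul_of_nonneg_left n3 hδ.le
    exact ⟨by linarith, by linarith⟩
  · rw [mul_div_cancel₀ _ hN.ne'] at m2
    refine m2.trans ?_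
    have := pow_le_pow_left₀ hN.le hN2 2
    nlinarith

/-- Slopes of the unit windows near the origin and the growth of the scaled function. -/
theorem chain_bound : ∃ T₀ δ₂ c : ℝ, 0 < T₀ ∧ T₀ ≤ 1 ∧ 0 < δ₂ ∧ 0 < c ∧ ∀ {u : E → ℝ} {δ : ℝ}
    {e : E}, 0 < δ → δ ≤ δ₂ → ‖e‖ = 1 → Flat₁ u δ → FitWin u 0 e 1 δ →
    ∀ (t : ℝ) (ξ : (ℝ ∙ e)ᗮ), |t| ≤ T₀ → Real.sqrt δ * ‖ξ‖ ≤ T₀ →
      |scaled u 0 e 1 δ t ξ| ≤ c * (1 + ‖ξ‖) ^ 2 ∧
      ∀ p : E, 1 / 16 ≤ ‖p‖ → ‖p‖ ≤ 16 →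
        FitWin u (t • e + Real.sqrt δ • (ξ : E)) p 1 δ →
          ‖p - e‖ ≤ c * Real.sqrt δ * (1 + ‖ξ‖) ∧ |‖p‖ - 1| ≤ c * δ * (1 + ‖ξ‖) := by
  refine ⟨1 / 100, 1 / 4, 10000000, by norm_num, by norm_num, by norm_num, by norm_num,
    fun {u δ e} hδ hδ4 he hflat hp t ξ ht hξ => ?_⟩
  obtain ⟨h1, h2⟩ := hflat.chain hδ hδ4 he hp (η := (ξ : E))
    (Submodule.mem_orthogonal_singleton_iff_inner_right.1 ξ.2) ht hξ
  simp only [Submodule.coe_norm] at h1 h2 ⊢
  have hξ0 := norm_nonneg (ξ : E)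
  refine ⟨?_, fun p p1 p2 p3 => ?_⟩
  · simp only [scaled, zero_add, one_smul, one_mul]
    rw [abs_div, abs_of_pos hδ, div_le_iff₀ hδ]
    refine h2.trans ?_
    nlinarith
  · obtain ⟨g1, g2⟩ := h1 p p1 p2 p3
    have : 0 ≤ Real.sqrt δ * (1 + ‖(ξ : E)‖) := by positivity
    have : 0 ≤ δ * (1 + ‖(ξ : E)‖) := by positivity
    exact ⟨by linarith, by linarith⟩

/-- Second differences of the slices of the scaled function. -/
theorem slice_zygmund : ∃ T₀ δ₂ c : ℝ, 0 < T₀ ∧ T₀ ≤ 1 ∧ 0 < δ₂ ∧ 0 < c ∧ ∀ {u : E → ℝ} {δ : ℝ}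
    {e : E}, 0 < δ → δ ≤ δ₂ → ‖e‖ = 1 → Visc (ball 0 8) u → Flat₁ u δ → FitWin u 0 e 1 δ →
    ∀ (t : ℝ) (ξ η : (ℝ ∙ e)ᗮ), |t| ≤ T₀ → Real.sqrt δ * ‖ξ‖ ≤ T₀ → ‖η‖ ≤ 1 →
      |scaled u 0 e 1 δ t (ξ + η) + scaled u 0 e 1 δ t (ξ - η) - 2 * scaled u 0 e 1 δ t ξ|
        ≤ c * ‖η‖ := by
  obtain ⟨δ₁, c, hδ₁, hc, hz⟩ := zygmund_flat (E := E)
  refine ⟨1 / 2, δ₁, c, by norm_num, by norm_num, hδ₁, hc,
    fun {u δ e} hδ hδ1 he hv hflat _ t ξ η ht hξ hη => ?_⟩
  have hs : 0 < Real.sqrt δ := Real.sqrt_pos.2 hδ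
  simp only [Submodule.coe_norm] at hξ hη ⊢
  have h := hz hv hδ hδ1 hflat (t • e + Real.sqrt δ • (ξ : E)) (Real.sqrt δ • (η : E)) (by
    refine (norm_add_le _ _).trans ?_
    rw [norm_smul, norm_smul, Real.norm_eq_abs, Real.norm_eq_abs, he, abs_of_pos hs]
    linarith) (by
    rw [norm_smul, Real.norm_of_nonneg hs.le]
    exact mul_le_of_le_one_right hs.le hη)
  rw [norm_smul, Real.norm_of_nonneg hs.le, ← mul_assoc, mul_assoc c,
    Real.mul_self_sqrt hδ.le] at h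
  simp only [scaled, zero_add, one_smul, one_mul, Submodule.coe_add, Submodule.coe_sub, smul_add,
    smul_sub, ← add_assoc, ← add_sub_assoc]
  rw [show ∀ a b m : ℝ, (a - u 0 - t) / δ + (b - u 0 - t) / δ - 2 * ((m - u 0 - t) / δ) =
      (a + b - 2 * m) / δ by intros; ring, abs_div, abs_of_pos hδ, div_le_iff₀ hδ]
  linarith

end Vale.Agent.P080.C1
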