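import Vale.Agent.P080.C1.Loc.Modulus
import Vale.Agent.P080.C1.Slice.Zygmund

/-!
B4, compactness: a subsequence of the scaled functions converges uniformly on compact sets.
-/

namespace Vale.Agent.P080.C1

open Metric Set Filter Topology Module
open scoped RealInnerProductSpace

/-- Arzelà-Ascoli on an open set: eventual pointwise bounds and eventual equicontinuity on
compact subsets give a subsequence converging uniformly on every compact subset. -/
theorem exists_subseq_tendstoUniformlyOn {X : Type*} [MetricSpace X] [ProperSpace X] {S : Set X}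
    (hS : IsOpen S) (W : ℕ → X → ℝ) (hb : ∀ x ∈ S, ∃ B, ∀ᶠ n in atTop, |W n x| ≤ B)
    (he : ∀ K, IsCompact K → K ⊆ S → ∀ ε, 0 < ε → ∃ κ, 0 < κ ∧
      ∀ᶠ n in atTop, ∀ x ∈ K, ∀ y ∈ K, dist x y ≤ κ → |W n x - W n y| ≤ ε) :
    ∃ (φ : ℕ → ℕ) (w : X → ℝ), StrictMono φ ∧ ContinuousOn w S ∧
      ∀ K, IsCompact K → K ⊆ S → TendstoUniformlyOn (fun n => W (φ n)) w atTop K := by
  classical
  rcases S.eq_empty_or_nonempty with rfl | hne
  · exact ⟨id, fun _ => 0, strictMono_id, continuousOn_const, fun K _ hKS => by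
      rw [subset_empty_iff.1 hKS]; exact tendstoUniformlyOn_empty⟩
  have : Nonempty S := hne.to_subtype
  obtain ⟨d, hd⟩ := TopologicalSpace.exists_dense_seq S
  choose B hB using fun k => hb (d k) (d k).2
  have hB' : ∀ k, ∃ B', ∀ n, |W n (d k)| ≤ B' := fun k => by
    obtain ⟨B', hB'⟩ := (IsBoundedUnder.bddAbove_range (f := fun n => |W n (d k)|)
      ⟨B k, eventually_map.2 (hB k)⟩)
    exact ⟨B', fun n => hB' ⟨n, rfl⟩⟩
  choose B' hB' using hB'
  obtain ⟨a, -, φ, hφ, ha⟩ := (isCompact_univ_pi fun k => isCompact_Icc (a := -B' k) (b := B' k))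
    |>.tendsto_subseq (x := fun n k => W n (d k)) fun n k _ => abs_le.1 (hB' k n)
  rw [tendsto_pi_nhds] at ha
  have hφt := hφ.tendsto_atTop
  have cauchy : ∀ K, IsCompact K → K ⊆ S → ∀ ε, 0 < ε →
      ∃ N, ∀ n ≥ N, ∀ m ≥ N, ∀ x ∈ K, |W (φ n) x - W (φ m) x| ≤ ε := by
    intro K hK hKS ε hε
    obtain ⟨r, hr, hrS⟩ := hK.exists_cthickening_subset_open hS hKS
    obtain ⟨κ, hκ, hev⟩ := he _ hK.cthickening hrS (ε / 3) (by positivity)
    have hρ : 0 < min r κ := lt_min hr hκ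
    have hcov : K ⊆ ⋃ k, ball (d k : X) (min r κ) := fun x hx => by
      obtain ⟨k, hk⟩ := hd.exists_dist_lt ⟨x, hKS hx⟩ hρ
      exact mem_iUnion.2 ⟨k, hk⟩
    obtain ⟨t, ht⟩ := hK.elim_finite_subcover _ (fun _ => isOpen_ball) hcov
    have hpts : ∀ᶠ n in atTop, ∀ k ∈ t, |W (φ n) (d k) - a k| ≤ ε / 6 := by
      rw [eventually_all_finset]
      exact fun k _ => (Metric.tendsto_nhds.1 (ha k) (ε / 6) (by positivity)).mono fun n hn => hn.le
    obtain ⟨N, hN⟩ := eventually_atTop.1 ((hφt.eventually hev).and hpts)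
    refine ⟨N, fun n hn m hm x hx => ?_⟩
    obtain ⟨k, hk, hxk⟩ := mem_iUnion₂.1 (ht hx)
    rw [mem_ball] at hxk
    have hxm : x ∈ cthickening r K := self_subset_cthickening K hx
    have hkm : (d k : X) ∈ cthickening r K :=
      mem_cthickening_of_dist_le _ x r K hx
        ((dist_comm _ _).trans_le (hxk.le.trans (min_le_left _ _)))
    have h1 := abs_le.1 ((hN n hn).1 x hxm _ hkm (hxk.le.trans (min_le_right _ _)))
    have h2 := abs_le.1 ((hN m hm).1 x hxm _ hkm (hxk.le.trans (min_le_right _ _)))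
    have h3 := abs_le.1 ((hN n hn).2 k hk)
    have h4 := abs_le.1 ((hN m hm).2 k hk)
    exact abs_le.2 ⟨by linarith, by linarith⟩
  have hpt : ∀ x ∈ S, ∃ l, Tendsto (fun n => W (φ n) x) atTop (𝓝 l) := by
    intro x hx
    refine cauchySeq_tendsto_of_complete (Metric.cauchySeq_iff.2 fun ε hε => ?_)
    obtain ⟨N, hN⟩ := cauchy {x} isCompact_singleton (singleton_subset_iff.2 hx) (ε / 2)
      (by positivity)
    exact ⟨N, fun n hn m hm => (hN n hn m hm x rfl).trans_lt (half_lt_self hε)⟩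
  set w : X → ℝ := fun x => if h : x ∈ S then (hpt x h).choose else 0
  have hw : ∀ x ∈ S, Tendsto (fun n => W (φ n) x) atTop (𝓝 (w x)) := fun x hx => by
    simp only [w, dif_pos hx]; exact (hpt x hx).choose_spec
  refine ⟨φ, w, hφ, fun x hx => ?_, fun K hK hKS => ?_⟩
  · obtain ⟨r, hr, hrS⟩ := nhds_basis_closedBall.mem_iff.1 (hS.mem_nhds hx)
    rw [Metric.continuousWithinAt_iff]
    intro ε hε
    obtain ⟨κ, hκ, hev⟩ := he _ (isCompact_closedBall x r) hrS (ε / 2) (by positivity)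
    refine ⟨min r κ, lt_min hr hκ, fun {y} hy hxy => ?_⟩
    have h := le_of_tendsto ((hw y hy).sub (hw x hx)).abs ((hφt.eventually hev).mono fun n hn =>
      hn y (mem_closedBall.2 (hxy.le.trans (min_le_left _ _))) x (mem_closedBall_self hr.le)
        (hxy.le.trans (min_le_right _ _)))
    rw [Real.dist_eq]
    linarith
  · rw [Metric.tendstoUniformlyOn_iff]
    intro ε hε
    obtain ⟨N, hN⟩ := cauchy K hK hKS (ε / 2) (by positivity)
    refine eventually_atTop.2 ⟨N, fun n hn x hx => ?_⟩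
    have h := le_of_tendsto ((tendsto_const_nhds (x := W (φ n) x)).sub (hw x (hKS hx))).abs
      (eventually_atTop.2 ⟨N, fun m hm => hN n hn m hm x hx⟩)
    rw [Real.dist_eq, abs_sub_comm]
    linarith

variable {F : Type*} [NormedAddCommGroup F] [InnerProductSpace ℝ F] [FiniteDimensional ℝ F]

/-- A bound and second differences of size `M ‖d‖` give a modulus of continuity. -/
theorem modulus_of_secondDiff {f : F → ℝ} {x z : F} {M B r : ℝ} (hM : 0 ≤ M)
    (hc : ContinuousOn f (closedBall x 1)) (hd : SecondDiff f (closedBall x 1) M)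
    (hB : ∀ z : F, ‖z‖ ≤ 1 → |f (x + z)| ≤ B) (hr : 0 < r) (hr1 : r ≤ 1 / 2 ^ finrank ℝ F)
    (hz : ‖z‖ ≤ r) :
    |f (x + z) - f x|
      ≤ (2 * 2 ^ finrank ℝ F * B + 20 * (3 * 2 ^ finrank ℝ F * M)) * Real.sqrt r := by
  set p : ℝ := 2 ^ finrank ℝ F with hp
  set K := 3 * p * M
  have hp1 : 1 ≤ p := one_le_pow₀ one_le_two
  have hp0 : 0 < p := by positivity
  have hK : 0 ≤ K := by positivity
  have hR0 : 0 < 1 / p := by positivity
  have hR1 : 1 / p ≤ 1 := (div_le_one hp0).2 hp1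
  have hball : closedBall x (p * (1 / p)) ⊆ closedBall x 1 :=
    closedBall_subset_closedBall (by rw [mul_one_div_cancel hp0.ne'])
  have hsub : closedBall x (p * r) ⊆ closedBall x 1 :=
    (closedBall_subset_closedBall (by gcongr)).trans hball
  have h1 := sliceSlope_spec hM hc hd hr hsub
  have h2 := sliceSlope_scale hM hc hd hr hr1 (x := x) hball
  have h3 : ‖sliceSlope f K x (1 / p)‖ ≤ 2 * p * B + K := by
    refine norm_le_of_inner_le hR0 fun y hy => ?_
    have h := abs_le.1 (sliceSlope_spec hM hc hd hR0 hball y hy)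
    have h0 := abs_le.1 (by simpa using hB 0 (by simp))
    have hy' := abs_le.1 (hB y (hy.trans hR1))
    have e : (2 * p * B + K) * (1 / p) = 2 * B + K * (1 / p) := by field_simp
    rw [e]
    linarith [h.1, h0.1, hy'.2]
  have hlr : Real.log (1 / p / r) ≤ Real.log (1 / r) :=
    Real.log_le_log (div_pos hR0 hr) (div_le_div_of_nonneg_right hR1 hr.le)
  have hg : ‖sliceSlope f K x r‖ ≤ 2 * p * B + 7 * K + 6 * K * Real.log (1 / r) := by
    have h4 := norm_le_norm_add_norm_sub' (sliceSlope f K x r) (sliceSlope f K x (1 / p))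
    have h5 := mul_le_mul_of_nonneg_left hlr hK
    linarith
  set v := Real.sqrt r
  have hv : 0 < v := Real.sqrt_pos.2 hr
  have hvv : r = v * v := (Real.mul_self_sqrt hr.le).symm
  have hv1 : v ≤ 1 := Real.sqrt_le_one.2 (hr1.trans hR1)
  have hlog : r * Real.log (1 / r) ≤ 2 * v := by
    have h4 := Real.log_le_sub_one_of_pos (inv_pos.2 hv)
    rw [Real.log_inv] at h4
    have h5 : Real.log (1 / r) = -(2 * Real.log v) := by
      rw [one_div, Real.log_inv, Real.log_sqrt hr.le]; ring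
    rw [h5]
    have h6 := mul_le_mul_of_nonneg_left h4 hr.le
    have h7 : r * (v⁻¹ - 1) = v - r := by rw [hvv]; field_simp
    nlinarith
  have hrv : r ≤ v := by nlinarith
  have hB0 : 0 ≤ B := (abs_nonneg _).trans (hB 0 (by simp))
  have h8 := abs_le.1 (abs_real_inner_le_norm (sliceSlope f K x r) z)
  have h9 : ‖sliceSlope f K x r‖ * ‖z‖ ≤ (2 * p * B + 7 * K + 6 * K * Real.log (1 / r)) * r :=
    mul_le_mul hg hz (norm_nonneg _) ((norm_nonneg _).trans hg)
  have h10 := abs_le.1 (h1 z hz)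
  have h11 := mul_le_mul_of_nonneg_left hrv (mul_nonneg hp0.le hB0)
  have h12 := mul_le_mul_of_nonneg_left hrv hK
  have h13 := mul_le_mul_of_nonneg_left hlog hK
  exact abs_le.2 ⟨by linarith, by linarith⟩

variable {E : Type*} [NormedAddCommGroup E] [InnerProductSpace ℝ E] [FiniteDimensional ℝ E]

/-- The first limit, without the monotonicity and the barriers. -/
theorem first_extract : ∃ T₀ C : ℝ, 0 < T₀ ∧ T₀ ≤ 1 ∧ 0 < C ∧ ∀ {e : E}, ‖e‖ = 1 →
    ∀ (u : ℕ → E → ℝ) (δ : ℕ → ℝ), (∀ n, 0 < δ n) → Tendsto δ atTop (𝓝 0) →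
      (∀ n, Visc (ball 0 8) (u n)) → (∀ n, Flat₁ (u n) (δ n)) →
      (∀ n, FitWin (u n) 0 e 1 (δ n)) →
      ∃ (φ : ℕ → ℕ) (w : ℝ → (ℝ ∙ e)ᗮ → ℝ), StrictMono φ ∧
        ContinuousOn (fun X : ℝ × (ℝ ∙ e)ᗮ => w X.1 X.2) (Ioo (-T₀) T₀ ×ˢ univ) ∧
        w 0 0 = 0 ∧
        (∀ (t : ℝ) (y : (ℝ ∙ e)ᗮ), |t| < T₀ → |w t y| ≤ C * (1 + ‖y‖) ^ 2) ∧
        (∀ (t : ℝ) (y z : (ℝ ∙ e)ᗮ), |t| < T₀ → ‖z‖ ≤ 1 →
          |w t (y + z) + w t (y - z) - 2 * w t y| ≤ C * ‖z‖) ∧
        ∀ K : Set (ℝ × (ℝ ∙ e)ᗮ), IsCompact K → K ⊆ Ioo (-T₀) T₀ ×ˢ univ → TendstoUniformlyOn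
          (fun n (X : ℝ × (ℝ ∙ e)ᗮ) => scaled (u (φ n)) 0 e 1 (δ (φ n)) X.1 X.2)
          (fun X => w X.1 X.2) atTop K := by
  obtain ⟨T₁, δ₁, c₁, hT₁, hT₁', hδ₁, hc₁, hchain⟩ := chain_bound (E := E)
  obtain ⟨T₂, δ₂, c₂, hT₂, hT₂', hδ₂, hc₂, hzyg⟩ := slice_zygmund (E := E)
  obtain ⟨T₃, hT₃, htime⟩ := time_modulus (E := E)
  refine ⟨min T₁ (min T₂ T₃), max c₁ c₂, lt_min hT₁ (lt_min hT₂ hT₃), (min_le_left _ _).trans hT₁',
    lt_max_of_lt_left hc₁, fun {e} he u δ hδ hlim hv hflat hfit => ?_⟩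
  set T := min T₁ (min T₂ T₃)
  have hTT₂ : T ≤ T₂ := (min_le_right _ _).trans (min_le_left _ _)
  have hTT₃ : T ≤ T₃ := (min_le_right _ _).trans (min_le_right _ _)
  set S : Set (ℝ × (ℝ ∙ e)ᗮ) := Ioo (-T) T ×ˢ univ
  set W : ℕ → ℝ × (ℝ ∙ e)ᗮ → ℝ := fun n X => scaled (u n) 0 e 1 (δ n) X.1 X.2
  have hev : ∀ A : ℝ, ∀ᶠ n in atTop, δ n ≤ δ₁ ∧ δ n ≤ δ₂ ∧
      Real.sqrt (δ n) * A ≤ min (min T₁ T₂) 1 := by
    intro A
    have h1 := hlim.eventually_le_const hδ₁
    have h2 := hlim.eventually_le_const hδ₂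
    have h3 : Tendsto (fun n => Real.sqrt (δ n) * A) atTop (𝓝 0) := by
      simpa using ((Real.continuous_sqrt.tendsto 0).comp hlim).mul_const A
    exact h1.and (h2.and (h3.eventually_le_const (lt_min (lt_min hT₁ hT₂) one_pos)))
  have hgrow : ∀ A : ℝ, ∀ᶠ n in atTop, ∀ (t : ℝ) (y : (ℝ ∙ e)ᗮ), |t| ≤ T → ‖y‖ ≤ A →
      |W n (t, y)| ≤ c₁ * (1 + ‖y‖) ^ 2 := by
    intro A
    filter_upwards [hev A] with n hn t y ht hy
    refine (hchain (hδ n) hn.1 he (hflat n) (hfit n) t y (ht.trans (min_le_left _ _)) ?_).1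
    exact (mul_le_mul_of_nonneg_left hy (Real.sqrt_nonneg _)).trans
      (hn.2.2.trans ((min_le_left _ _).trans (min_le_left _ _)))
  have hsl : ∀ A : ℝ, ∀ᶠ n in atTop, ∀ (t : ℝ) (y z : (ℝ ∙ e)ᗮ), |t| ≤ T → ‖y‖ ≤ A → ‖z‖ ≤ 1 →
      |W n (t, y + z) + W n (t, y - z) - 2 * W n (t, y)| ≤ c₂ * ‖z‖ := by
    intro A
    filter_upwards [hev A] with n hn t y z ht hy hz
    exact hzyg (hδ n) hn.2.1 he (hv n) (hflat n) (hfit n) t y z (ht.trans hTT₂)
      ((mul_le_mul_of_nonneg_left hy (Real.sqrt_nonneg _)).trans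
        (hn.2.2.trans ((min_le_left _ _).trans (min_le_right _ _)))) hz
  have hcont : ∀ A : ℝ, ∀ᶠ n in atTop, ∀ t : ℝ, |t| ≤ T →
      ContinuousOn (fun y => W n (t, y)) (closedBall 0 A) := by
    intro A
    filter_upwards [hev A] with n hn t ht
    simp only [W, scaled, one_smul, one_mul, zero_add]
    refine ((ContinuousOn.comp (hv n).cont (by fun_prop) fun y hy => ?_).sub
      continuousOn_const |>.sub continuousOn_const).div_const _
    rw [mem_closedBall_zero_iff] at hy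
    rw [mem_ball_zero_iff]
    refine (norm_add_le _ _).trans_lt ?_
    rw [norm_smul, norm_smul, he, Real.norm_eq_abs, Real.norm_eq_abs,
      abs_of_nonneg (Real.sqrt_nonneg _)]
    change |t| * 1 + Real.sqrt (δ n) * ‖y‖ < 8
    have : Real.sqrt (δ n) * ‖y‖ ≤ 1 := (mul_le_mul_of_nonneg_left hy (Real.sqrt_nonneg _)).trans
      (hn.2.2.trans (min_le_right _ _))
    linarith [ht.trans ((min_le_left _ _).trans hT₁')]
  have hequi : ∀ K, IsCompact K → K ⊆ S → ∀ ε, 0 < ε → ∃ κ, 0 < κ ∧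
      ∀ᶠ n in atTop, ∀ x ∈ K, ∀ y ∈ K, dist x y ≤ κ → |W n x - W n y| ≤ ε := by
    intro K hK hKS ε hε
    obtain ⟨A, hA⟩ := hK.isBounded.subset_closedBall 0
    set d := finrank ℝ (ℝ ∙ e)ᗮ
    set P : ℝ := |A| + 1
    set B : ℝ := c₁ * (1 + (P + 1)) ^ 2
    set Q : ℝ := 2 * 2 ^ d * B + 20 * (3 * 2 ^ d * c₂)
    have hQ : 0 < Q := by positivity
    obtain ⟨δ₃, κ, hδ₃, hκ, htm⟩ := htime P (ε / 2) (by positivity) (by positivity)
    refine ⟨min κ (min (1 / 2 ^ d) ((ε / (2 * Q)) ^ 2)),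
      lt_min hκ (lt_min (by positivity) (by positivity)), ?_⟩
    filter_upwards [hgrow (P + 1), hsl (P + 1), hcont (P + 1),
      hlim.eventually_le_const hδ₃] with n hg hs hc h3
    intro a ha b hb hab
    obtain ⟨t, y⟩ := a
    obtain ⟨t', y'⟩ := b
    have hy : ‖y‖ ≤ P := by
      have := (norm_snd_le (t, y)).trans (mem_closedBall_zero_iff.1 (hA ha))
      linarith [le_abs_self A]
    have ht : |t| ≤ T := (abs_lt.2 (hKS ha).1).le
    have ht' : |t'| ≤ T := (abs_lt.2 (hKS hb).1).le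
    rw [Prod.dist_eq, max_le_iff] at hab
    obtain ⟨h1, h2⟩ := hab
    rw [Real.dist_eq] at h1
    rw [dist_eq_norm, norm_sub_rev] at h2
    have htime' := htm (hδ n) h3 he (hv n) (hflat n) (hfit n) t (t' - t) y (ht.trans hTT₃)
      (by rw [add_sub_cancel]; exact ht'.trans hTT₃) hy
      (by rw [abs_sub_comm]; exact h1.trans (min_le_left _ _))
    rw [add_sub_cancel] at htime'
    set r := min (1 / (2 : ℝ) ^ d) ((ε / (2 * Q)) ^ 2)
    have hr : 0 < r := lt_min (by positivity) (by positivity)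
    have hsub : closedBall y 1 ⊆ closedBall 0 (P + 1) :=
      closedBall_subset_closedBall' (by rw [dist_zero_right]; linarith)
    have hm := modulus_of_secondDiff (f := fun y => W n (t', y)) (x := y) (z := y' - y)
      (M := c₂) (B := B) hc₂.le ((hc t' ht').mono hsub)
      (fun p q hp hpq hpq' => by
        refine hs t' p q ht' (mem_closedBall_zero_iff.1 (hsub hp)) ?_
        rw [mem_closedBall, dist_eq_norm] at hpq hpq'
        have e : (2 : ℝ) • q = (p + q - y) - (p - q - y) := by rw [two_smul]; abel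
        have := norm_sub_le (p + q - y) (p - q - y)
        rw [← e, norm_smul, Real.norm_two] at this
        linarith) (fun z hz => (hg t' (y + z) ht'
          ((norm_add_le _ _).trans (by linarith))).trans ?_) hr (min_le_left _ _)
      (h2.trans (min_le_right _ _))
    · simp only [add_sub_cancel] at hm
      have hQr : Q * Real.sqrt r ≤ ε / 2 := by
        have : Real.sqrt r ≤ ε / (2 * Q) :=
          (Real.sqrt_le_sqrt (min_le_right _ _)).trans_eq (Real.sqrt_sq (by positivity))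
        calc Q * Real.sqrt r ≤ Q * (ε / (2 * Q)) := mul_le_mul_of_nonneg_left this hQ.le
          _ = ε / 2 := by field_simp
      have h4 := abs_le.1 htime'
      have h5 := abs_le.1 (hm.trans hQr)
      simp only [W] at h5 ⊢
      exact abs_le.2 ⟨by linarith, by linarith⟩
    · refine mul_le_mul_of_nonneg_left ?_ hc₁.le
      gcongr
      exact (norm_add_le _ _).trans (by linarith)
  obtain ⟨φ, w, hφ, hw, hconv⟩ := exists_subseq_tendstoUniformlyOn
    (S := S) (isOpen_Ioo.prod isOpen_univ) W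
    (fun X hX => ⟨_, (hgrow ‖X.2‖).mono fun n hn => hn X.1 X.2 (abs_lt.2 hX.1).le le_rfl⟩) hequi
  have hpt : ∀ (t : ℝ) (y : (ℝ ∙ e)ᗮ), |t| < T →
      Tendsto (fun n => W (φ n) (t, y)) atTop (𝓝 (w (t, y))) := fun t y ht =>
    (hconv {(t, y)} isCompact_singleton (singleton_subset_iff.2 ⟨abs_lt.1 ht, mem_univ _⟩))
      |>.tendsto_at rfl
  refine ⟨φ, fun t y => w (t, y), hφ, hw, ?_, fun t y ht => ?_, fun t y z ht hz => ?_, hconv⟩
  · refine tendsto_nhds_unique (hpt 0 0 (by rw [abs_zero]; exact lt_min hT₁ (lt_min hT₂ hT₃))) ?_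
    exact tendsto_const_nhds.congr fun n => by simp [W, scaled]
  · refine le_of_tendsto (hpt t y ht).abs ((hφ.tendsto_atTop.eventually (hgrow ‖y‖)).mono
      fun n hn => (hn t y ht.le le_rfl).trans ?_)
    exact mul_le_mul_of_nonneg_right (le_max_left _ _) (by positivity)
  · refine le_of_tendsto ((((hpt t (y + z) ht).add (hpt t (y - z) ht)).sub
      ((hpt t y ht).const_mul 2)).abs) ((hφ.tendsto_atTop.eventually (hsl ‖y‖)).mono
      fun n hn => (hn t y z ht.le le_rfl hz).trans ?_)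
    exact mul_le_mul_of_nonneg_right (le_max_right _ _) (norm_nonneg _)

end Vale.Agent.P080.C1
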