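import Vale.Agent.P080.C1.Loc.Chain

/-!
B3: the modulus in time of the scaled functions, uniformly in `δ`.

A quadratic supersolution on a thin box dominates `u` on three sides: on the initial slice by the
modulus of continuity of the slices (dyadic consequence of the bound on second differences and of
the growth bound), on the others by the growth bound. The same box is used for both signs of `u`
and in both directions of time.
-/

namespace Vale.Agent.P080.C1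

open Metric Set Filter Topology
open scoped RealInnerProductSpace

set_option linter.unusedSectionVars false

variable {E : Type*} [NormedAddCommGroup E] [InnerProductSpace ℝ E] [FiniteDimensional ℝ E]
variable {F : Type*} [NormedAddCommGroup F] [InnerProductSpace ℝ F] [FiniteDimensional ℝ F]

/-- A function with bounded second differences at a point is continuous there, quantitatively. -/
theorem dyadic_modulus {g : F → ℝ} {B c : ℝ} (hc : 0 ≤ c) (hb : ∀ h : F, ‖h‖ ≤ 1 → |g h| ≤ B)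
    (hs : ∀ h : F, ‖h‖ ≤ 1 / 2 → |g (h + h) + g 0 - 2 * g h| ≤ c * ‖h‖) (n : ℕ) :
    ∀ h : F, 2 ^ n * ‖h‖ ≤ 1 → |g h - g 0| ≤ 2 * B * (1 / 2) ^ n + n * c * ‖h‖ / 2 := by
  induction n with
  | zero =>
    intro h hh
    rw [pow_zero, one_mul] at hh
    have h1 := abs_le.1 (hb h hh)
    have h2 := abs_le.1 (hb 0 (by simp))
    norm_num
    rw [abs_le]
    constructor <;> linarith
  | succ n ih =>
    intro h hh
    have hp : (1 : ℝ) ≤ 2 ^ n := one_le_pow₀ (by norm_num)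
    have hn := norm_nonneg h
    have hhh : ‖h + h‖ ≤ 2 * ‖h‖ := (norm_add_le h h).trans (le_of_eq (two_mul _).symm)
    rw [pow_succ] at hh
    have h1 := abs_le.1 (ih (h + h) (by nlinarith [norm_nonneg (h + h)]))
    have h2 := abs_le.1 (hs h (by nlinarith))
    have h3 : (n : ℝ) * c * ‖h + h‖ ≤ n * c * (2 * ‖h‖) :=
      mul_le_mul_of_nonneg_left hhh (by positivity)
    rw [pow_succ, Nat.cast_succ, abs_le]
    constructor <;> linarith

/-- The infinity Laplacian of a quadratic barrier. -/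
theorem quad_lap {e z₀ : E} (he : ‖e‖ = 1) (c A M N : ℝ) (z : E) :
    fderiv ℝ (fderiv ℝ
        (fun y => c + A * ⟪e, y - z₀⟫ + M * ‖y - z₀‖ ^ 2 - N * ⟪e, y - z₀⟫ ^ 2)) z
      (gradient (fun y => c + A * ⟪e, y - z₀⟫ + M * ‖y - z₀‖ ^ 2 - N * ⟪e, y - z₀⟫ ^ 2) z)
      (gradient (fun y => c + A * ⟪e, y - z₀⟫ + M * ‖y - z₀‖ ^ 2 - N * ⟪e, y - z₀⟫ ^ 2) z)
    = 2 * (M - N) * (A + 2 * (M - N) * ⟪e, z - z₀⟫) ^ 2
        + 8 * M ^ 3 * (‖z - z₀‖ ^ 2 - ⟪e, z - z₀⟫ ^ 2) := by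
  set G : E → E := fun y => (A - 2 * N * ⟪e, y - z₀⟫) • e + (2 * M) • (y - z₀) with hG
  have hd : ∀ y, HasFDerivAt
      (fun y => c + A * ⟪e, y - z₀⟫ + M * ‖y - z₀‖ ^ 2 - N * ⟪e, y - z₀⟫ ^ 2)
      (innerSL ℝ (G y)) y := by
    intro y
    have hs : HasFDerivAt (fun w : E => w - z₀) (ContinuousLinearMap.id ℝ E) y :=
      (hasFDerivAt_id y).sub_const z₀
    have hi : HasFDerivAt (fun w : E => ⟪e, w - z₀⟫) (innerSL ℝ e) y :=
      ((innerSL ℝ e).hasFDerivAt.comp y hs).congr_fderiv (ContinuousLinearMap.comp_id _)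
    refine ((((hi.const_mul A).const_add c).add (hs.norm_sq.const_mul M)).sub
      ((hi.pow 2).const_mul N)).congr_fderiv ?_
    ext v
    simp [hG]
    ring
  have h1 : fderiv ℝ (fun y => c + A * ⟪e, y - z₀⟫ + M * ‖y - z₀‖ ^ 2 - N * ⟪e, y - z₀⟫ ^ 2)
      = fun y => innerSL ℝ (G y) := funext fun y => (hd y).fderiv
  set L : E →L[ℝ] E := (-(2 * N)) • (innerSL ℝ e).smulRight e + (2 * M) • ContinuousLinearMap.id ℝ E
  have h2 : HasFDerivAt (fun y => innerSL ℝ (G y)) ((innerSL ℝ).comp L) z := by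
    refine (innerSL ℝ).hasFDerivAt.comp z ?_
    have hi : HasFDerivAt (fun w : E => ⟪e, w - z₀⟫) (innerSL ℝ e) z :=
      ((innerSL ℝ e).hasFDerivAt.comp z ((hasFDerivAt_id z).sub_const z₀)).congr_fderiv
        (ContinuousLinearMap.comp_id _)
    refine ((((hi.const_mul (2 * N)).const_sub A).smul_const e).add
      (((hasFDerivAt_id z).sub_const z₀).const_smul (2 * M))).congr_fderiv ?_
    ext v
    simp [L]
    module
  have hgr : gradient (fun y => c + A * ⟪e, y - z₀⟫ + M * ‖y - z₀‖ ^ 2 - N * ⟪e, y - z₀⟫ ^ 2) z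
      = G z := by
    refine ext_inner_right ℝ fun v => ?_
    rw [gradient, InnerProductSpace.toDual_symm_apply, h1]
    simp
  rw [hgr, h1, h2.fderiv]
  have hee : ⟪e, e⟫ = 1 := by rw [real_inner_self_eq_norm_sq, he]; norm_num
  simp only [ContinuousLinearMap.comp_apply, innerSL_apply_apply]
  simp only [L, hG, add_apply, smul_apply,
    ContinuousLinearMap.smulRight_apply, innerSL_apply_apply, ContinuousLinearMap.id_apply,
    inner_add_left, inner_add_right, real_inner_smul_left, real_inner_smul_right, hee,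
    real_inner_comm e (z - z₀), real_inner_self_eq_norm_sq]
  ring

/-- The barrier on a thin box: growth from the base point along `e` is linear in time, up to the
modulus of the initial slice. -/
theorem barrier_step {v : E → ℝ} {e z₀ : E} {δ lam ρ T B ε M L K : ℝ}
    (hsub : ∀ z ∈ ball (0 : E) 8, ∀ φ : E → ℝ, ContDiff ℝ 2 φ →
      IsLocalMax (fun y => v y - φ y) z →
        0 ≤ fderiv ℝ (fderiv ℝ φ) z (gradient φ z) (gradient φ z))
    (hcont : ContinuousOn v (ball 0 8)) (he : ‖e‖ = 1) (hlam : lam = 1 ∨ lam = -1) (hδ : 0 < δ)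
    (hρ : δ * ρ ^ 2 ≤ 1) (hT : 0 < T) (hT1 : T ≤ 1) (hz₀ : ‖z₀‖ ≤ 4) (hε : 0 ≤ ε) (hM : 0 ≤ M)
    (hMB : B ≤ M * ρ ^ 2) (hKB : B ≤ K * T - L * T ^ 2) (hLK : L * T ≤ K)
    (hLM : 16 * M ^ 3 * ρ ^ 2 < L) (hγ : δ * (K + 2 * L * T) ≤ 1 / 2)
    (hside : ∀ z, 0 ≤ ⟪e, z - z₀⟫ → ⟪e, z - z₀⟫ ≤ T →
      ‖z - z₀‖ ^ 2 - ⟪e, z - z₀⟫ ^ 2 ≤ δ * ρ ^ 2 → v z - v z₀ - lam * ⟪e, z - z₀⟫ ≤ δ * B)
    (hfirst : ∀ z, ⟪e, z - z₀⟫ = 0 → ‖z - z₀‖ ^ 2 ≤ δ * ρ ^ 2 → v z - v z₀ ≤ δ * ε)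
    {τ : ℝ} (hτ : 0 ≤ τ) (hτT : τ ≤ T) :
    v (z₀ + τ • e) - v z₀ - lam * τ ≤ δ * (ε + K * τ) := by
  have hL0 : 0 ≤ L := by
    have : 0 ≤ 16 * M ^ 3 * ρ ^ 2 := by positivity
    linarith
  have hρ2 : 0 ≤ δ * ρ ^ 2 := by positivity
  set ℓ : E → ℝ := fun y => ⟪e, y - z₀⟫
  set q : E → ℝ := fun y => ‖y - z₀‖ ^ 2 - ℓ y ^ 2
  set φ : E → ℝ := fun y => (v z₀ + δ * ε) + (lam + δ * K) * ⟪e, y - z₀⟫ + M * ‖y - z₀‖ ^ 2
    - (M + δ * L) * ⟪e, y - z₀⟫ ^ 2 with hφ
  have hℓc : Continuous ℓ := continuous_const.inner (continuous_id.sub continuous_const)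
  have hqc : Continuous q := ((continuous_id.sub continuous_const).norm.pow 2).sub (hℓc.pow 2)
  have hφc : ContDiff ℝ 2 φ := by
    have h1 : ContDiff ℝ 2 fun y : E => ⟪e, y - z₀⟫ :=
      contDiff_const.inner ℝ (contDiff_id.sub contDiff_const)
    exact ((contDiff_const.add (contDiff_const.mul h1)).add
      (contDiff_const.mul ((contDiff_id.sub contDiff_const).norm_sq ℝ))).sub
        (contDiff_const.mul (h1.pow 2))
  set S : Set E := {y | 0 ≤ ℓ y ∧ ℓ y ≤ T ∧ q y ≤ δ * ρ ^ 2} with hS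
  have hSball : S ⊆ closedBall z₀ 2 := by
    rintro y ⟨h1, h2, h3⟩
    rw [mem_closedBall, dist_eq_norm]
    have h4 : ℓ y ^ 2 ≤ 1 := pow_le_one₀ h1 (h2.trans hT1)
    simp only [q] at h3
    nlinarith [norm_nonneg (y - z₀)]
  have hSU : S ⊆ ball (0 : E) 8 := fun y hy => by
    have h1 := hSball hy
    rw [mem_closedBall, dist_eq_norm] at h1
    rw [mem_ball_zero_iff]
    linarith [norm_le_insert' y z₀]
  have hSclosed : IsClosed S := (isClosed_le continuous_const hℓc).inter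
    ((isClosed_le hℓc continuous_const).inter (isClosed_le hqc continuous_const))
  have hScpt : IsCompact S := (isCompact_closedBall z₀ 2).of_isClosed_subset hSclosed hSball
  have hmem : z₀ + τ • e ∈ S := by
    simp only [hS, mem_ofPred_eq, ℓ, q, add_sub_cancel_left,
      real_inner_smul_right, real_inner_self_eq_norm_sq, he, norm_smul, Real.norm_eq_abs]
    norm_num
    exact ⟨hτ, hτT, hρ2⟩
  obtain ⟨z, hz, hmax⟩ := hScpt.exists_isMaxOn (f := fun y => v y - φ y) ⟨_, hmem⟩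
    ((hcont.mono hSU).sub hφc.continuous.continuousOn)
  obtain ⟨h1, h2, h3⟩ := hz
  have key : v z - φ z ≤ 0 := by
    by_cases hint : 0 < ℓ z ∧ ℓ z < T ∧ q z < δ * ρ ^ 2
    · exfalso
      have hnhds : S ∈ 𝓝 z := by
        filter_upwards [hℓc.continuousAt.eventually (lt_mem_nhds hint.1),
          hℓc.continuousAt.eventually (gt_mem_nhds hint.2.1),
          hqc.continuousAt.eventually (gt_mem_nhds hint.2.2)] with y a b d
        exact ⟨a.le, b.le, d.le⟩
      have hv := hsub z (hSU ⟨h1, h2, h3⟩) φ hφc (hmax.isLocalMax hnhds)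
      rw [hφ, quad_lap he] at hv
      have hg : 1 / 4 ≤ (lam + δ * K + 2 * (M - (M + δ * L)) * ⟪e, z - z₀⟫) ^ 2 := by
        have hlz : 0 ≤ δ * L * ℓ z := by positivity
        have hlz' : δ * L * ℓ z ≤ δ * L * T := mul_le_mul_of_nonneg_left h2 (by positivity)
        have hK0 : 0 ≤ δ * K := mul_nonneg hδ.le (le_trans (by positivity) hLK)
        simp only [ℓ] at hlz hlz'
        rcases hlam with rfl | rfl <;> nlinarith
      have h5 := mul_le_mul_of_nonneg_left hg (by positivity : 0 ≤ δ * L)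
      have h6 := mul_le_mul_of_nonneg_left hint.2.2.le (by positivity : 0 ≤ 8 * M ^ 3)
      have h7 := mul_lt_mul_of_pos_left hLM hδ
      simp only [q, ℓ] at h6
      linarith
    · have hq0 : 0 ≤ q z := by
        have hc := abs_real_inner_le_norm e (z - z₀)
        rw [he, one_mul] at hc
        simp only [q, ℓ]
        nlinarith [abs_nonneg ⟪e, z - z₀⟫, sq_abs ⟪e, z - z₀⟫]
      have hMq : 0 ≤ M * q z := mul_nonneg hM hq0
      have hδε : 0 ≤ δ * ε := by positivity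
      have hKL : 0 ≤ δ * (K * ℓ z - L * ℓ z ^ 2) := by
        refine mul_nonneg hδ.le ?_
        nlinarith [mul_le_mul_of_nonneg_left h2 hL0]
      simp only [φ]
      simp only [q, ℓ] at h1 h2 h3 hint hMq hKL ⊢
      rcases eq_or_lt_of_le h1 with h0 | h0
      · have hv := hfirst z h0.symm (by rw [← h0] at h3; linarith)
        rw [← h0] at hMq ⊢
        linarith
      · have hv := hside z h1 h2 h3
        rcases eq_or_lt_of_le h2 with hT' | hT'
        · have := mul_le_mul_of_nonneg_left hKB hδ.le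
          rw [hT'] at hv hMq ⊢
          linarith
        · have hq : ‖z - z₀‖ ^ 2 - ⟪e, z - z₀⟫ ^ 2 = δ * ρ ^ 2 :=
            le_antisymm h3 (not_lt.1 fun h => hint ⟨h0, hT', h⟩)
          have := mul_le_mul_of_nonneg_left hMB hδ.le
          have hMeq := congrArg (M * ·) hq
          linarith
  have h := (hmax hmem).trans key
  simp only [φ, add_sub_cancel_left, real_inner_smul_right, real_inner_self_eq_norm_sq, he,
    norm_smul, Real.norm_eq_abs, mul_one, sq_abs, one_pow] at h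
  have : 0 ≤ δ * L * τ ^ 2 := by positivity
  linarith

/-- The scaled function at the origin, on a point in units. -/
theorem scaled_diff {u : E → ℝ} {e : E} {δ : ℝ} (hδ : 0 < δ) (t t' : ℝ) (ξ ξ' : (ℝ ∙ e)ᗮ) :
    δ * (scaled u 0 e 1 δ t' ξ' - scaled u 0 e 1 δ t ξ) =
      u (t' • e + Real.sqrt δ • (ξ' : E)) - u (t • e + Real.sqrt δ • (ξ : E)) - (t' - t) := by
  simp only [scaled, one_smul, one_mul, zero_add]
  field_simp
  ring

/-- The coordinates in units of a point in a thin tube around `t e + √δ ξ`. -/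
theorem tube_coord {u : E → ℝ} {e : E} {δ ρ : ℝ} (hδ : 0 < δ) (he : ‖e‖ = 1) (hρ : 0 ≤ ρ)
    (t : ℝ) (ξ : (ℝ ∙ e)ᗮ) (d : E) (hd : ‖d‖ ^ 2 - ⟪e, d⟫ ^ 2 ≤ δ * ρ ^ 2) :
    ∃ η : (ℝ ∙ e)ᗮ, ‖η‖ ≤ ρ ∧
      δ * (scaled u 0 e 1 δ (t + ⟪e, d⟫) (ξ + η) - scaled u 0 e 1 δ t ξ) =
        u (t • e + Real.sqrt δ • (ξ : E) + d) - u (t • e + Real.sqrt δ • (ξ : E)) - ⟪e, d⟫ := by
  set a : ℝ := ⟪e, d⟫ with ha
  have hq := Real.sqrt_pos.2 hδ
  have horth : ⟪e, d - a • e⟫ = 0 := by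
    rw [inner_sub_right, real_inner_smul_right, real_inner_self_eq_norm_sq, he, ← ha]; ring
  refine ⟨(Real.sqrt δ)⁻¹ • ⟨d - a • e,
    Submodule.mem_orthogonal_singleton_iff_inner_right.2 horth⟩, ?_, ?_⟩
  · rw [norm_smul, Real.norm_of_nonneg (by positivity), inv_mul_le_iff₀ hq, Submodule.coe_norm]
    rw [← sq_le_sq₀ (norm_nonneg _) (by positivity), mul_pow, Real.sq_sqrt hδ.le]
    refine le_trans (le_of_eq ?_) hd
    rw [norm_sub_sq_real, real_inner_smul_right, norm_smul, he, Real.norm_eq_abs,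
      real_inner_comm e d, ← ha, mul_one, sq_abs]
    ring
  · rw [scaled_diff hδ, Submodule.coe_add, SetLike.val_smul, smul_add, smul_inv_smul₀ hq.ne']
    rw [show (t + a) • e + (Real.sqrt δ • (ξ : E) + (d - a • e))
      = t • e + Real.sqrt δ • (ξ : E) + d by module]
    ring

/-- Both signs and both directions of time of `barrier_step`. -/
theorem two_sided_step {u : E → ℝ} {e z₀ : E} {δ ρ T B ε M L K : ℝ} (hu : Visc (ball 0 8) u)
    (he : ‖e‖ = 1) (hδ : 0 < δ) (hρ : δ * ρ ^ 2 ≤ 1) (hT : 0 < T) (hT1 : T ≤ 1)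
    (hz₀ : ‖z₀‖ ≤ 4) (hε : 0 ≤ ε) (hM : 0 ≤ M) (hMB : B ≤ M * ρ ^ 2)
    (hKB : B ≤ K * T - L * T ^ 2) (hLK : L * T ≤ K) (hLM : 16 * M ^ 3 * ρ ^ 2 < L)
    (hγ : δ * (K + 2 * L * T) ≤ 1 / 2)
    (hside : ∀ d, |⟪e, d⟫| ≤ T → ‖d‖ ^ 2 - ⟪e, d⟫ ^ 2 ≤ δ * ρ ^ 2 →
      |u (z₀ + d) - u z₀ - ⟪e, d⟫| ≤ δ * B)
    (hfirst : ∀ d, ⟪e, d⟫ = 0 → ‖d‖ ^ 2 ≤ δ * ρ ^ 2 → |u (z₀ + d) - u z₀| ≤ δ * ε)
    {τ : ℝ} (hτ : |τ| ≤ T) : |u (z₀ + τ • e) - u z₀ - τ| ≤ δ * (ε + K * |τ|) := by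
  obtain ⟨s, hs, hsτ⟩ : ∃ s : ℝ, (s = 1 ∨ s = -1) ∧ s * τ = |τ| := by
    rcases le_total 0 τ with h | h
    · exact ⟨1, Or.inl rfl, by rw [one_mul, abs_of_nonneg h]⟩
    · exact ⟨-1, Or.inr rfl, by rw [abs_of_nonpos h]; ring⟩
  have hs2 : s * s = 1 := by rcases hs with rfl | rfl <;> norm_num
  suffices key : ∀ q : ℝ, q = 1 ∨ q = -1 →
      q * (u (z₀ + τ • e) - u z₀ - τ) ≤ δ * (ε + K * |τ|) by
    rw [abs_le]
    have h1 := key 1 (Or.inl rfl)
    have h2 := key (-1) (Or.inr rfl)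
    constructor <;> linarith
  intro q hq
  have hq1 : ∀ x : ℝ, q * x ≤ |x| := fun x => by
    rcases hq with rfl | rfl <;> [simpa using le_abs_self x; simpa using neg_le_abs x]
  have hsub : ∀ z ∈ ball (0 : E) 8, ∀ φ : E → ℝ, ContDiff ℝ 2 φ →
      IsLocalMax (fun y => q * u y - φ y) z →
        0 ≤ fderiv ℝ (fderiv ℝ φ) z (gradient φ z) (gradient φ z) := by
    intro z hz φ hφ hmax
    rcases hq with rfl | rfl
    · exact hu.sub z hz φ hφ (by simpa using hmax)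
    · have h := hu.sup z hz (fun y => -φ y) hφ.neg (by
        refine hmax.neg.congr ?_
        filter_upwards with y
        ring)
      have e1 : fderiv ℝ (fun y => -φ y) = fun y => -fderiv ℝ φ y :=
        funext fun y => fderiv_fun_neg
      rw [gradient, e1, fderiv_fun_neg, map_neg, ← gradient] at h
      simpa using h
  have hlam : q * s = 1 ∨ q * s = -1 := by
    rcases hq with rfl | rfl <;> rcases hs with rfl | rfl <;> norm_num
  have hse : ∀ d : E, ⟪s • e, d⟫ = s * ⟪e, d⟫ := fun d => real_inner_smul_left e d s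
  have hsq : ∀ x : ℝ, (s * x) ^ 2 = x ^ 2 := fun x => by
    linear_combination x ^ 2 * hs2
  have hflip : ∀ x : ℝ, q * s * (s * x) = q * x := fun x => by
    linear_combination q * x * hs2
  have h := barrier_step (v := fun y => q * u y) (e := s • e) (lam := q * s) (M := M) (L := L)
    (K := K) hsub (continuousOn_const.mul hu.cont)
    (by rcases hs with rfl | rfl <;> simp [he]) hlam hδ hρ hT hT1 hz₀ hε hM hMB hKB hLK hLM hγ
    (fun z h0 hTz hz => by
      rw [hse] at h0 hTz hz ⊢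
      rw [hsq] at hz
      have habs : |⟪e, z - z₀⟫| ≤ T := by
        rw [← sq_le_sq₀ (abs_nonneg _) hT.le, sq_abs, ← hsq]
        exact pow_le_pow_left₀ h0 hTz 2
      have h4 := (hq1 _).trans (hside _ habs hz)
      rw [add_sub_cancel] at h4
      rw [hflip]
      linarith)
    (fun z h0 hz => by
      rw [hse] at h0
      have h0' : ⟪e, z - z₀⟫ = 0 := by
        rcases hs with rfl | rfl <;> linarith
      have h4 := (hq1 _).trans (hfirst _ h0' hz)
      rw [add_sub_cancel] at h4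
      linarith)
    (abs_nonneg τ) hτ
  rw [show |τ| • s • e = τ • e by rw [smul_smul, ← hsτ, mul_right_comm, hs2, one_mul],
    show q * s * |τ| = q * τ by rw [← hsτ, hflip]] at h
  linarith

/-- Equicontinuity in time on compact sets. -/
theorem time_modulus : ∃ T₀ : ℝ, 0 < T₀ ∧ ∀ B ε : ℝ, 0 < B → 0 < ε → ∃ δ₃ κ : ℝ, 0 < δ₃ ∧ 0 < κ ∧
    ∀ {u : E → ℝ} {δ : ℝ} {e : E}, 0 < δ → δ ≤ δ₃ → ‖e‖ = 1 → Visc (ball 0 8) u → Flat₁ u δ →
      FitWin u 0 e 1 δ → ∀ (t τ : ℝ) (ξ : (ℝ ∙ e)ᗮ), |t| ≤ T₀ → |t + τ| ≤ T₀ → ‖ξ‖ ≤ B → |τ| ≤ κ →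
        |scaled u 0 e 1 δ (t + τ) ξ - scaled u 0 e 1 δ t ξ| ≤ ε := by
  obtain ⟨Tc, δc, c, hTc, hTc1, hδc, hc, hchain⟩ := chain_bound (E := E)
  obtain ⟨Tz, δz, cz, hTz, -, hδz, hcz, hzyg⟩ := slice_zygmund (E := E)
  refine ⟨min Tc Tz / 2, by positivity, fun B ε hB hε => ?_⟩
  set T : ℝ := min Tc Tz / 2 with hTdef
  have hT : 0 < T := by positivity
  have hTTc : 2 * T ≤ Tc := by rw [hTdef]; linarith [min_le_left Tc Tz]
  have hTTz : 2 * T ≤ Tz := by rw [hTdef]; linarith [min_le_right Tc Tz]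
  set B₁ : ℝ := c * (2 + B) ^ 2 with hB₁
  have hB₁0 : 0 < B₁ := by positivity
  obtain ⟨n, hn⟩ := exists_pow_lt_of_lt_one (by positivity : 0 < ε / (8 * B₁))
    (by norm_num : (1 / 2 : ℝ) < 1)
  rw [lt_div_iff₀ (by positivity)] at hn
  set ρ : ℝ := min ((1 / 2) ^ n) (ε / (2 * (n * cz + 1))) with hρdef
  have hρ : 0 < ρ := by positivity
  have hρn : 2 ^ n * ρ ≤ 1 :=
    (mul_le_mul_of_nonneg_left (min_le_left _ _) (by positivity)).trans_eq (by
      rw [← mul_pow]; norm_num)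
  have hρ1 : ρ ≤ 1 := (min_le_left _ _).trans (pow_le_one₀ (by norm_num) (by norm_num))
  have hρε : ρ * (n * cz + 1) ≤ ε / 2 := by
    have h := min_le_right ((1 / 2 : ℝ) ^ n) (ε / (2 * (n * cz + 1)))
    rw [← hρdef, le_div_iff₀ (by positivity)] at h
    linarith
  set M : ℝ := 2 * B₁ / ρ ^ 2 with hM
  set L : ℝ := 16 * M ^ 3 * ρ ^ 2 + 1 with hL
  set K : ℝ := 2 * B₁ / T + L * T with hK
  have hK0 : 0 < K := by positivity
  set X : ℝ := 1 / (2 * (K + 2 * L * T) + 1) with hX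
  refine ⟨min (min δc δz) (min (min ((T / (B + 2)) ^ 2) 1) X), min T (ε / (2 * K)),
    by positivity, by positivity, ?_⟩
  intro u δ e hδ hδle he hvisc hflat hfit t τ ξ ht htτ hξ hτ
  simp only [le_min_iff] at hδle
  obtain ⟨⟨hδ1, hδ2⟩, ⟨hδ3, hδ4⟩, hδ5⟩ := hδle
  simp only [le_min_iff] at hτ
  obtain ⟨hτT, hτK⟩ := hτ
  rw [le_div_iff₀ (by positivity)] at hτK
  have hsqrt : Real.sqrt δ * (B + 2) ≤ T := by
    rw [← le_div_iff₀ (by positivity)]
    exact (Real.sqrt_le_sqrt hδ3).trans_eq (Real.sqrt_sq (by positivity))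
  have hδX : δ * (2 * (K + 2 * L * T) + 1) ≤ 1 := by
    rwa [hX, le_div_iff₀ (by positivity)] at hδ5
  -- bounds in the region
  set W := scaled u 0 e 1 δ with hW
  have hreach : ∀ η : (ℝ ∙ e)ᗮ, ‖η‖ ≤ B + 2 → Real.sqrt δ * ‖η‖ ≤ T := fun η hη =>
    (mul_le_mul_of_nonneg_left hη (Real.sqrt_nonneg δ)).trans hsqrt
  have hbd : ∀ (t' : ℝ) (η : (ℝ ∙ e)ᗮ), |t'| ≤ 2 * T → ‖η‖ ≤ B + 1 → |W t' η| ≤ B₁ :=
    fun t' η ht' hη => ((hchain hδ hδ1 he hflat hfit t' η (ht'.trans hTTc)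
      ((hreach η (by linarith)).trans (by linarith))).1).trans
      (mul_le_mul_of_nonneg_left (pow_le_pow_left₀ (by positivity) (by linarith) 2) hc.le)
  have hmod : ∀ η : (ℝ ∙ e)ᗮ, ‖η‖ ≤ ρ → |W t (ξ + η) - W t ξ| ≤ ε / 2 := by
    intro η hη
    have h0 := dyadic_modulus (g := fun h => W t (ξ + h)) (B := B₁) hcz.le
      (fun h hh => hbd t _ (by linarith) (by linarith [norm_add_le ξ h]))
      (fun h hh => by
        have h1 := hzyg hδ hδ2 he hvisc hflat hfit t (ξ + h) h (by linarith)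
          ((hreach _ (by linarith [norm_add_le ξ h])).trans (by linarith)) (by linarith)
        simpa [hW, add_assoc] using h1) n η
      ((mul_le_mul_of_nonneg_left hη (by positivity)).trans hρn)
    simp only [add_zero] at h0
    have h2 : (n : ℝ) * cz * ‖η‖ ≤ n * cz * ρ := mul_le_mul_of_nonneg_left hη (by positivity)
    linarith
  -- the base point
  set z₀ : E := t • e + Real.sqrt δ • (ξ : E) with hz₀
  have hz₀n : ‖z₀‖ ≤ 4 := by
    have h1 := norm_add_le (t • e) (Real.sqrt δ • (ξ : E))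
    rw [norm_smul, norm_smul, he, Real.norm_eq_abs, mul_one,
      Real.norm_of_nonneg (Real.sqrt_nonneg δ)] at h1
    have h2 := hreach ξ (by linarith)
    rw [Submodule.coe_norm] at h2
    linarith
  have hbase : |W t ξ| ≤ B₁ := hbd t ξ (by linarith) (by linarith)
  have h := two_sided_step (u := u) (z₀ := z₀) (ρ := ρ) (B := 2 * B₁) (ε := ε / 2) (M := M)
    (L := L) (K := K) hvisc he hδ (by nlinarith) hT (by linarith) hz₀n (by positivity)
    (by positivity) (by rw [hM]; field_simp; exact le_rfl)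
    (by rw [hK]; field_simp; linarith)
    (by rw [hK]; linarith [show 0 ≤ 2 * B₁ / T by positivity]) (by linarith) (by linarith)
    (fun d hdT hd => by
      obtain ⟨η, hη, hval⟩ := tube_coord (u := u) hδ he hρ.le t ξ d hd
      rw [← hval, abs_mul, abs_of_pos hδ]
      refine mul_le_mul_of_nonneg_left ((abs_sub _ _).trans ?_) hδ.le
      have := hbd (t + ⟪e, d⟫) (ξ + η) (by linarith [abs_add_le t ⟪e, d⟫])
        (by linarith [norm_add_le ξ η])
      linarith)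
    (fun d h0 hd => by
      obtain ⟨η, hη, hval⟩ := tube_coord (u := u) hδ he hρ.le t ξ d (by rw [h0]; linarith)
      rw [h0, add_zero, sub_zero] at hval
      rw [← hval, abs_mul, abs_of_pos hδ]
      exact mul_le_mul_of_nonneg_left (hmod η hη) hδ.le)
    hτT
  have hd := scaled_diff (u := u) hδ t (t + τ) ξ ξ
  rw [← hW, add_smul, show t • e + τ • e + Real.sqrt δ • (ξ : E) = z₀ + τ • e by rw [hz₀]; abel,
    ← hz₀] at hd
  have h5 : δ * |W (t + τ) ξ - W t ξ| ≤ δ * ε := by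
    rw [show δ * |W (t + τ) ξ - W t ξ| = |δ * (W (t + τ) ξ - W t ξ)| by
      rw [abs_mul, abs_of_pos hδ], hd, show t + τ - t = τ by ring]
    linarith [mul_le_mul_of_nonneg_left hτK hδ.le]
  exact le_of_mul_le_mul_left h5 hδ

end Vale.Agent.P080.C1
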