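import Vale.Agent.P080.C1.Loc.WindowsProof

/-!
B5: windows at all small scales in the class `K1`.
-/

namespace Vale.Agent.P080.C1

open Metric Set Filter Topology
open scoped RealInnerProductSpace

set_option linter.unusedSectionVars false

variable {E : Type*} [NormedAddCommGroup E] [InnerProductSpace ℝ E] [FiniteDimensional ℝ E]
variable {F : Type*} [NormedAddCommGroup F] [InnerProductSpace ℝ F] [FiniteDimensional ℝ F]

/-- Windows at all small scales. -/
theorem loc_windows (T₀ h₀ C : ℝ) (hT : 0 < T₀) (hh : 0 < h₀) : ∃ r₀ C' : ℝ, 0 < r₀ ∧ 0 < C' ∧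
    ∀ {w : ℝ → F → ℝ}, LocProf T₀ h₀ C w → ∀ (t : ℝ) (y : F) (r : ℝ), |t| ≤ r₀ → ‖y‖ ≤ r₀ →
      0 < r → r ≤ r₀ → ∃ (b : ℝ) (v : F), IsWin C' w t y r b v :=
  loc_windows' T₀ h₀ C hT hh

end Vale.Agent.P080.C1
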