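import Vale.Agent.P080.C1.Loc.Defs
import Vale.Agent.P080.C1.Slice.Zygmund

/-!
B5, first step: the class `K1` gives the two one-step convexities in raw form (without suprema)
for short steps, and slopes of the slices with growth `(1 + ‖z‖ / r) ^ (3 / 2)`.
-/

namespace Vale.Agent.P080.C1

open Set Metric Module
open scoped RealInnerProductSpace

variable {F : Type*} [NormedAddCommGroup F] [InnerProductSpace ℝ F]
variable {T₀ h₀ C : ℝ} {w : ℝ → F → ℝ}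

theorem LocProf.const_nonneg (hw : LocProf T₀ h₀ C w) (hT : 0 < T₀) : 0 ≤ C := by
  have := hw.growth 0 0 (by simpa using hT)
  simpa [hw.zero] using this

omit [InnerProductSpace ℝ F] in
/-- Quadratic growth below `1 / 2h` bounds the Hopf-Lax values above. -/
theorem bddAbove_hl (hC : 0 ≤ C) (hg : ∀ t y, |t| < T₀ → |w t y| ≤ C * (1 + ‖y‖) ^ 2)
    {h t : ℝ} (y : F) (hh : 0 < h) (hCh : 4 * C * h ≤ 1) (ht : |t + h| < T₀) :
    BddAbove (range fun z => w (t + h) (y + z) - ‖z‖ ^ 2 / (2 * h)) := by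
  refine ⟨2 * C * (1 + ‖y‖) ^ 2, ?_⟩
  rintro _ ⟨z, rfl⟩
  show w (t + h) (y + z) - ‖z‖ ^ 2 / (2 * h) ≤ 2 * C * (1 + ‖y‖) ^ 2
  have h1 := (abs_le.1 (hg (t + h) (y + z) ht)).2
  have h2 : C * (1 + ‖y + z‖) ^ 2 ≤ C * (1 + ‖y‖ + ‖z‖) ^ 2 := by
    gcongr C * ?_ ^ 2
    linarith [norm_add_le y z]
  have h3 : C * (1 + ‖y‖ + ‖z‖) ^ 2 ≤ 2 * C * (1 + ‖y‖) ^ 2 + 2 * C * ‖z‖ ^ 2 := by
    nlinarith [mul_nonneg hC (sq_nonneg (1 + ‖y‖ - ‖z‖))]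
  have h4 : 2 * C * ‖z‖ ^ 2 ≤ ‖z‖ ^ 2 / (2 * h) := by
    rw [le_div_iff₀ (by positivity)]
    calc 2 * C * ‖z‖ ^ 2 * (2 * h) = 4 * C * h * ‖z‖ ^ 2 := by ring
      _ ≤ 1 * ‖z‖ ^ 2 := by gcongr
      _ = _ := one_mul _
  linarith

omit [InnerProductSpace ℝ F] in
/-- One forward convexity from monotone slopes and quadratic growth. -/
theorem raw_fwd (hC : 0 ≤ C) (hg : ∀ t y, |t| < T₀ → |w t y| ≤ C * (1 + ‖y‖) ^ 2)
    (hm : LocMono T₀ h₀ w) {t s : ℝ} {y : F} (hs : 0 < s) (hs0 : 2 * s ≤ h₀)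
    (hCs : 8 * C * s ≤ 1) (ht : -T₀ < t) (ht2 : t + 2 * s < T₀) {U : ℝ}
    (hU : ∀ z, w (t + 2 * s) (y + z) - ‖z‖ ^ 2 / (4 * s) ≤ U) (z : F) :
    2 * (w (t + s) (y + z) - ‖z‖ ^ 2 / (2 * s)) ≤ w t y + U := by
  have e : (2 : ℝ) * (2 * s) = 4 * s := by ring
  have h2 : hlP w (2 * s) t y ≤ U := by
    refine csSup_le (range_nonempty _) ?_
    rintro _ ⟨q, rfl⟩
    simpa only [e] using hU q
  have h1 : w (t + s) (y + z) - ‖z‖ ^ 2 / (2 * s) ≤ hlP w s t y :=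
    le_csSup (bddAbove_hl hC hg y hs (by nlinarith) (abs_lt.2 ⟨by linarith, by linarith⟩)) ⟨z, rfl⟩
  have h3 := hm t y s (2 * s) hs (by linarith) hs0 ht ht2
  rw [Sp, Sp, div_le_div_iff₀ hs (by linarith)] at h3
  have h4 : (hlP w s t y - w t y) * 2 * s ≤ (hlP w (2 * s) t y - w t y) * s := by linarith
  have := le_of_mul_le_mul_right h4 hs
  linarith

theorem LocProf.raw_fwd (hw : LocProf T₀ h₀ C w) {t s : ℝ} {y : F} (hs : 0 < s)
    (hs0 : 2 * s ≤ h₀) (hCs : 8 * C * s ≤ 1) (ht : -T₀ < t) (ht2 : t + 2 * s < T₀) {U : ℝ}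
    (hU : ∀ z, w (t + 2 * s) (y + z) - ‖z‖ ^ 2 / (4 * s) ≤ U) (z : F) :
    2 * (w (t + s) (y + z) - ‖z‖ ^ 2 / (2 * s)) ≤ w t y + U :=
  C1.raw_fwd (hw.const_nonneg (by linarith)) hw.growth hw.mono hs hs0 hCs ht ht2 hU z

theorem LocProf.raw_bwd (hw : LocProf T₀ h₀ C w) {t s : ℝ} {y : F} (hs : 0 < s)
    (hs0 : 2 * s ≤ h₀) (hCs : 8 * C * s ≤ 1) (ht : t < T₀) (ht2 : -T₀ < t - 2 * s) {U : ℝ}
    (hU : ∀ z, U ≤ w (t - 2 * s) (y + z) + ‖z‖ ^ 2 / (4 * s)) (z : F) :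
    w t y + U ≤ 2 * (w (t - s) (y + z) + ‖z‖ ^ 2 / (2 * s)) := by
  have hg : ∀ a x, |a| < T₀ → |mir w a x| ≤ C * (1 + ‖x‖) ^ 2 := fun a x ha => by
    rw [mir, abs_neg]; exact hw.growth _ _ (by rwa [abs_neg])
  have e1 : -(-t + 2 * s) = t - 2 * s := by ring
  have e2 : -(-t + s) = t - s := by ring
  have h := C1.raw_fwd (U := -U) (y := y) (hw.const_nonneg (by linarith)) hg hw.mono_mir hs hs0
    hCs (by linarith : -T₀ < -t) (by linarith)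
    (fun q => by simp only [mir, e1]; linarith [hU q]) z
  simp only [mir, e2, neg_neg] at h
  linarith

/-- The slices of a profile in `K1` have slopes at every scale up to one. -/
theorem LocProf.slice_slope [FiniteDimensional ℝ F] (hw : LocProf T₀ h₀ C w) {t : ℝ}
    (ht : |t| < T₀) (y : F) {r : ℝ} (hr : 0 < r) (hr1 : r ≤ 1) :
    ∃ g : F, ∀ z : F, ‖z‖ ≤ 1 → |w t (y + z) - w t y - ⟪g, z⟫| ≤
      42 * 4 ^ finrank ℝ F * C * r * ((1 + ‖z‖ / r) * Real.sqrt (1 + ‖z‖ / r)) :=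
  exists_slope_growth (hw.const_nonneg ((abs_nonneg t).trans_lt ht))
    (hw.cont.comp_continuous (Continuous.prodMk_right t) fun z => ⟨abs_lt.1 ht, mem_univ z⟩)
    (fun x d hd => hw.slices t x d ht hd) y hr hr1

end Vale.Agent.P080.C1
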