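import Vale.Agent.P080.C1.Loc.WindowsMono
import Vale.Agent.P080.C1.Slice.Three
import Vale.Agent.P080.C1.Slice.Recursion

/-!
B5 assembled: windows at all small scales in the class `K1`, from the three-slice inequality.
The lateral slope along the moving line stays within a constant of the slope at the centre (the
recursion from `2r` to `r`), and the line itself is affine up to `O(r)`.
-/

namespace Vale.Agent.P080.C1

open Set Metric Module
open scoped RealInnerProductSpace

variable {F : Type*} [NormedAddCommGroup F] [InnerProductSpace ℝ F] [FiniteDimensional ℝ F]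
variable {T₀ h₀ C : ℝ} {w : ℝ → F → ℝ}

/-- The constant of the slice slopes. -/
noncomputable def sliceK (F : Type*) [NormedAddCommGroup F] [InnerProductSpace ℝ F] (C : ℝ) : ℝ :=
  3 * 2 ^ finrank ℝ F * (2 ^ finrank ℝ F * C)

/-- The slope of the slice at time `t`, centre `y` and scale `r`. -/
noncomputable def locSlope (C : ℝ) (w : ℝ → F → ℝ) (r t : ℝ) (y : F) : F :=
  sliceSlope (w t) (sliceK F C) y r

omit [FiniteDimensional ℝ F] in
theorem sliceK_nonneg (hC : 0 ≤ C) : 0 ≤ sliceK F C := by unfold sliceK; positivity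

theorem LocProf.slice_cont (hw : LocProf T₀ h₀ C w) {t : ℝ} (ht : |t| < T₀) :
    Continuous (w t) :=
  hw.cont.comp_continuous (Continuous.prodMk_right t) fun z => ⟨abs_lt.1 ht, mem_univ z⟩

theorem LocProf.slice_secondDiff (hw : LocProf T₀ h₀ C w) {t : ℝ} (ht : |t| < T₀) (y : F) :
    SecondDiff (w t) (closedBall y (2 ^ finrank ℝ F)) (2 ^ finrank ℝ F * C) := by
  intro x d _ h1 h2
  refine secondDiff_of_short (fun x d hd => hw.slices t x d ht hd) _ x d ?_
  rw [mem_closedBall, dist_eq_norm] at h1 h2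
  have e : (2 : ℝ) • d = (x + d - y) - (x - d - y) := by rw [two_smul]; abel
  have := norm_sub_le (x + d - y) (x - d - y)
  rw [← e, norm_smul, Real.norm_two] at this
  linarith

theorem LocProf.slope_spec (hw : LocProf T₀ h₀ C w) {t r : ℝ} (ht : |t| < T₀) (y : F)
    (hr : 0 < r) (hr1 : r ≤ 1) :
    NearSlope (w t) y r (sliceK F C) (locSlope C w r t y) :=
  sliceSlope_spec (mul_nonneg (by positivity) (hw.const_nonneg ((abs_nonneg t).trans_lt ht)))
    (hw.slice_cont ht).continuousOn (hw.slice_secondDiff ht y) hr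
    (closedBall_subset_closedBall (mul_le_of_le_one_right (by positivity) hr1))

theorem LocProf.slope_scale (hw : LocProf T₀ h₀ C w) {t r R : ℝ} (ht : |t| < T₀) (y : F)
    (hr : 0 < r) (hrR : r ≤ R) (hR : R ≤ 1) :
    ‖locSlope C w r t y - locSlope C w R t y‖ ≤ 6 * sliceK F C * (1 + Real.log (R / r)) :=
  sliceSlope_scale (mul_nonneg (by positivity) (hw.const_nonneg ((abs_nonneg t).trans_lt ht)))
    (hw.slice_cont ht).continuousOn (hw.slice_secondDiff ht y) hr hrR
    (closedBall_subset_closedBall (mul_le_of_le_one_right (by positivity) hR))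

theorem LocProf.slope_neighbour (hw : LocProf T₀ h₀ C w) {t r R : ℝ} (ht : |t| < T₀) (y z : F)
    (hr : 0 < r) (hrR : r ≤ R) (hR : R ≤ 1 / 2) (hz : ‖z‖ ≤ R) :
    ‖locSlope C w r t (y + z) - locSlope C w r t y‖ ≤
      23 * sliceK F C * (1 + Real.log (R / r)) :=
  sliceSlope_neighbour (mul_nonneg (by positivity) (hw.const_nonneg ((abs_nonneg t).trans_lt ht)))
    (hw.slice_cont ht).continuousOn (hw.slice_secondDiff ht y) hr hrR hz
    (closedBall_subset_closedBall (by rw [pow_succ]; nlinarith [pow_pos (two_pos : (0:ℝ) < 2) (finrank ℝ F)]))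

theorem LocProf.logSlope (hw : LocProf T₀ h₀ C w) {t r : ℝ} (ht : |t| < T₀) (y : F)
    (hr : 0 < r) :
    LogSlope (w t) y (locSlope C w r t y) r 1 (7 * sliceK F C) := by
  intro R z h1 h2 h3
  exact sliceSlope_growth (mul_nonneg (by positivity) (hw.const_nonneg ((abs_nonneg t).trans_lt ht)))
    (hw.slice_cont ht).continuousOn (hw.slice_secondDiff ht y) hr h1 h3
    (closedBall_subset_closedBall (mul_le_of_le_one_right (by positivity) h2))

theorem LocProf.quadGrowth (hw : LocProf T₀ h₀ C w) {t : ℝ} (ht : |t| < T₀) {y : F}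
    (hy : ‖y‖ ≤ 2) : QuadGrowth (w t) y (18 * C) := by
  intro z
  have hC := hw.const_nonneg ((abs_nonneg t).trans_lt ht)
  have h1 := hw.growth t (y + z) ht
  have h2 := hw.growth t y ht
  have h3 : C * (1 + ‖y + z‖) ^ 2 ≤ C * (3 * (1 + ‖z‖)) ^ 2 := by
    gcongr; linarith [norm_add_le y z, norm_nonneg z]
  have h4 : C * (1 + ‖y‖) ^ 2 ≤ C * (3 * (1 + ‖z‖)) ^ 2 := by
    gcongr; linarith [norm_nonneg z]
  calc |w t (y + z) - w t y| ≤ |w t (y + z)| + |w t y| := abs_sub _ _
    _ ≤ 2 * (C * (3 * (1 + ‖z‖)) ^ 2) := by linarith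
    _ = _ := by ring

/-- The slope at the unit scale is bounded. -/
theorem LocProf.slope_top (hw : LocProf T₀ h₀ C w) {t r : ℝ} (ht : |t| < T₀) {y : F}
    (hy : ‖y‖ ≤ 2) (hr : 0 < r) (hr1 : r ≤ 1) :
    ‖locSlope C w r t y‖ ≤ (7 * sliceK F C + 25 * C) * (1 + Real.log (1 / r)) := by
  have hC := hw.const_nonneg ((abs_nonneg t).trans_lt ht)
  have h1 : ‖locSlope C w 1 t y‖ ≤ sliceK F C + 25 * C := by
    refine norm_le_of_inner_le one_pos fun z hz => ?_
    have a := abs_le.1 (hw.slope_spec ht y one_pos le_rfl z hz)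
    have b := abs_le.1 (hw.growth t (y + z) ht)
    have c := abs_le.1 (hw.growth t y ht)
    have d : C * (1 + ‖y + z‖) ^ 2 ≤ C * 4 ^ 2 := by
      gcongr; linarith [norm_add_le y z]
    have e : C * (1 + ‖y‖) ^ 2 ≤ C * 3 ^ 2 := by gcongr; linarith
    linarith
  have h2 := hw.slope_scale ht y hr hr1 le_rfl
  have h3 := norm_le_norm_sub_add (locSlope C w r t y) (locSlope C w 1 t y)
  nlinarith [Real.log_nonneg ((one_le_div hr).2 hr1), sliceK_nonneg (F := F) hC]

omit [FiniteDimensional ℝ F] in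
theorem LocProf.upConvex (hw : LocProf T₀ h₀ C w) {t s : ℝ} (hs : 0 < s) (hs0 : 2 * s ≤ h₀)
    (hCs : 8 * C * s ≤ 1) (ht : |t| + s < T₀) (y k x : F) :
    UpConvex (w (t - s)) (w t) (w (t + s)) (y - s • k) y (y + s • k) k s x := by
  intro U hU
  have hb := abs_le.1 (le_refl |t|)
  have e1 : t - s + 2 * s = t + s := by ring
  have e2 : t - s + s = t := by ring
  have ep : y - s • k + x + s • k = y + x := by abel
  have hn : ‖s • k‖ ^ 2 / (2 * s) = s * ‖k‖ ^ 2 / 2 := by
    rw [norm_smul, Real.norm_eq_abs, mul_pow, sq_abs]; field_simp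
  have h := hw.raw_fwd (t := t - s) (y := y - s • k + x) (U := U - s * ‖k‖ ^ 2) hs hs0 hCs
    (by linarith) (by linarith) (fun z => ?_) (s • k)
  · rw [e2, ep, hn] at h
    linarith
  · have h' := hU (z - (2 * s) • k)
    have eq : y + s • k + (x + (z - (2 * s) • k)) = y - s • k + x + z := by
      rw [two_mul, add_smul]; abel
    have e3 : ⟪k, z - (2 * s) • k⟫ + ‖z - (2 * s) • k‖ ^ 2 / (4 * s) + s * ‖k‖ ^ 2 =
        ‖z‖ ^ 2 / (4 * s) := by
      rw [norm_sub_sq_real, inner_sub_right, norm_smul, Real.norm_eq_abs, mul_pow, sq_abs,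
        real_inner_smul_right, real_inner_smul_right, real_inner_self_eq_norm_sq,
        real_inner_comm z k]
      field_simp
      ring
    rw [eq] at h'
    rw [e1]
    linarith

omit [FiniteDimensional ℝ F] in
theorem LocProf.downConcave (hw : LocProf T₀ h₀ C w) {t s : ℝ} (hs : 0 < s) (hs0 : 2 * s ≤ h₀)
    (hCs : 8 * C * s ≤ 1) (ht : |t| + s < T₀) (y k x : F) :
    DownConcave (w (t - s)) (w t) (w (t + s)) (y - s • k) y (y + s • k) k s x := by
  intro U hU
  have hb := abs_le.1 (le_refl |t|)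
  have e1 : t + s - 2 * s = t - s := by ring
  have e2 : t + s - s = t := by ring
  have ep : y + s • k + x + (-s) • k = y + x := by rw [neg_smul]; abel
  have hn : ‖(-s) • k‖ ^ 2 / (2 * s) = s * ‖k‖ ^ 2 / 2 := by
    rw [norm_smul, Real.norm_eq_abs, abs_neg, mul_pow, sq_abs]; field_simp
  have h := hw.raw_bwd (t := t + s) (y := y + s • k + x) (U := U + s * ‖k‖ ^ 2) hs hs0 hCs
    (by linarith) (by linarith) (fun z => ?_) ((-s) • k)
  · rw [e2, ep, hn] at h
    linarith
  · have h' := hU (z + (2 * s) • k)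
    have eq : y - s • k + (x + (z + (2 * s) • k)) = y + s • k + x + z := by
      rw [two_mul, add_smul]; abel
    have e3 : -⟪k, z + (2 * s) • k⟫ + ‖z + (2 * s) • k‖ ^ 2 / (4 * s) + s * ‖k‖ ^ 2 =
        ‖z‖ ^ 2 / (4 * s) := by
      rw [norm_add_sq_real, inner_add_right, norm_smul, Real.norm_eq_abs, mul_pow, sq_abs,
        real_inner_smul_right, real_inner_smul_right, real_inner_self_eq_norm_sq,
        real_inner_comm z k]
      field_simp
      ring
    rw [eq] at h'
    rw [e1]
    linarith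

/-- The total of the constants that `R (1 + log (1 / R))^2` must absorb. -/
noncomputable def smallConst (K C D : ℝ) : ℝ :=
  (10 + absorbConst (7 * K)) * (2 + D) ^ 2 + 1152 * C + 24 * D + 8 * C + 4 * (1 + 3 * K) + 2

/-- `r (1 + log (1 / r))^2` is at most `216 √r`. -/
theorem mul_log_sq_le {r : ℝ} (hr : 0 < r) (hr1 : r ≤ 1) :
    r * (1 + Real.log (1 / r)) ^ 2 ≤ 216 * Real.sqrt r := by
  set v := Real.sqrt r with hv
  have hv0 : 0 < v := Real.sqrt_pos.2 hr
  have hv1 : v ≤ 1 := Real.sqrt_le_one.2 hr1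
  have h := mul_log_cube_le hv0 hv1
  have hl : Real.log (1 / v) = Real.log (1 / r) / 2 := by
    rw [one_div, one_div, Real.log_inv, Real.log_inv, hv, Real.log_sqrt hr.le]; ring
  rw [hl] at h
  have h0 := Real.log_nonneg ((one_le_div hr).2 hr1)
  set l := 1 + Real.log (1 / r) with hldef
  have hl1 : 1 ≤ l := by linarith
  have hm : v * l ^ 2 ≤ 8 * (v * (1 + Real.log (1 / r) / 2) ^ 3) := by
    calc v * l ^ 2 ≤ v * l ^ 3 := by gcongr <;> norm_num <;> linarith
      _ ≤ v * (2 * (1 + Real.log (1 / r) / 2)) ^ 3 := by gcongr; linarith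
      _ = _ := by ring
  calc r * l ^ 2 = v * (v * l ^ 2) := by rw [← mul_assoc, hv, Real.mul_self_sqrt hr.le]
    _ ≤ v * 216 := by gcongr; linarith
    _ = _ := by ring

theorem logInv_nonneg {R : ℝ} (hR : 0 < R) (h : R ≤ 1) : 0 ≤ Real.log (1 / R) :=
  Real.log_nonneg ((one_le_div hR).2 h)

/-- What a small scale `R` buys. -/
structure SmallScale (T₀ h₀ C K D R : ℝ) : Prop where
  pos : 0 < R
  le_one : R ≤ 1 / 4
  absorb : R * (1 + Real.log (1 / R)) ^ 2 * smallConst K C D ≤ 1
  time : 4 * R ≤ T₀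
  step : 2 * R ≤ h₀

theorem SmallScale.three {K D R : ℝ} (hS : SmallScale T₀ h₀ C K D R) (hK : 0 ≤ K) (hC : 0 ≤ C) (hD : 0 ≤ D)
    {L N : ℝ} (hL0 : 0 ≤ L) (hN0 : 0 ≤ N) (hL : L ≤ D * (1 + Real.log (1 / R)))
    (hN : N ≤ D * (1 + Real.log (1 / R))) :
    R * (10 + absorbConst (7 * K)) * (2 + L) ^ 2 ≤ 1 ∧
      4 * R * (18 * C * (2 / 1 + 2) ^ 2 + (L + 2 * N) * (2 / 1)) ≤ 1 ∧ 8 * C * R ≤ 1 ∧
      R * N ≤ 1 / 2 ∧ R * (1 + 3 * K) ≤ 1 / 2 := by
  set l := 1 + Real.log (1 / R) with hl
  have hR := hS.pos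
  have hl1 : 1 ≤ l := by
    have := logInv_nonneg hR (by linarith [hS.le_one])
    linarith
  have hA : 0 ≤ absorbConst (7 * K) := zero_le_one.trans (one_le_absorbConst (by positivity))
  have hl2 : l ≤ l ^ 2 := by nlinarith
  have hRl : 0 ≤ R * l ^ 2 := by positivity
  have habs := hS.absorb
  rw [← hl, smallConst] at habs
  have p1 : 0 ≤ R * l ^ 2 * ((10 + absorbConst (7 * K)) * (2 + D) ^ 2) := by positivity
  have p2 : 0 ≤ R * l ^ 2 * C := by positivity
  have p3 : 0 ≤ R * l ^ 2 * D := by positivity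
  have p4 : 0 ≤ R * l ^ 2 * K := by positivity
  have hRN : R * N ≤ R * l ^ 2 * D := by
    calc R * N ≤ R * (D * l ^ 2) := by gcongr; exact hN.trans (by gcongr)
      _ = _ := by ring
  have hRL : R * L ≤ R * l ^ 2 * D := by
    calc R * L ≤ R * (D * l ^ 2) := by gcongr; exact hL.trans (by gcongr)
      _ = _ := by ring
  have hRC : R * C ≤ R * l ^ 2 * C := by
    calc R * C = R * 1 * C := by ring
      _ ≤ _ := by gcongr; linarith
  have hR1 : R ≤ R * l ^ 2 := le_mul_of_one_le_right hR.le (by linarith)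
  have hRK : R * K ≤ R * l ^ 2 * K := by gcongr
  refine ⟨?_, by linarith, by linarith, by linarith, by linarith⟩
  calc R * (10 + absorbConst (7 * K)) * (2 + L) ^ 2
      ≤ R * (10 + absorbConst (7 * K)) * ((2 + D) * l) ^ 2 := by gcongr; nlinarith
    _ = R * l ^ 2 * ((10 + absorbConst (7 * K)) * (2 + D) ^ 2) := by ring
    _ ≤ 1 := by linarith

/-- The three slices at one point of `K1`: slopes and second difference along the frame. -/
theorem LocProf.three_step (hw : LocProf T₀ h₀ C w) {D R t s L : ℝ} {y k : F}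
    (hS : SmallScale T₀ h₀ C (sliceK F C) D R) (hD : 0 ≤ D) (hs : 0 < s) (hsR : s ≤ R)
    (ht : |t| + s ≤ 3 * R ∨ |t| + s < T₀) (hy1 : ‖y - s • k‖ ≤ 2) (hy2 : ‖y + s • k‖ ≤ 2)
    (hLD : L ≤ D * (1 + Real.log (1 / R))) (hkD : ‖k‖ ≤ D * (1 + Real.log (1 / R)))
    (haL : ‖locSlope C w R (t - s) (y - s • k) - k‖ ≤ L)
    (hbL : ‖locSlope C w R (t + s) (y + s • k) - k‖ ≤ L) :
    ‖locSlope C w R (t - s) (y - s • k) + locSlope C w R (t + s) (y + s • k) -
        (2 : ℝ) • locSlope C w R t y‖ ≤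
      1 + 4 * (7 * sliceK F C) * (10 + absorbConst (7 * sliceK F C)) *
        (1 + Real.log (10 + absorbConst (7 * sliceK F C)) + 2 * Real.log (2 + L)) ∧
    |w (t + s) (y + s • k) + w (t - s) (y - s • k) - 2 * w t y| ≤
      L ^ 2 * s + 4 * (7 * sliceK F C) * R * (2 + absorbConst (7 * sliceK F C) + 8 * L) *
        (1 + Real.log (2 + absorbConst (7 * sliceK F C) + 8 * L)) := by
  have htT : |t| + s < T₀ := ht.elim (fun h => by linarith [hS.time, hS.pos]) id
  have hb := abs_le.1 (le_refl |t|)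
  have htm : |t - s| < T₀ := abs_lt.2 ⟨by linarith, by linarith⟩
  have htp : |t + s| < T₀ := abs_lt.2 ⟨by linarith, by linarith⟩
  have ht0 : |t| < T₀ := by linarith
  have hC := hw.const_nonneg ((abs_nonneg t).trans_lt ht0)
  have hK := sliceK_nonneg (F := F) hC
  have hL0 : 0 ≤ L := (norm_nonneg _).trans haL
  obtain ⟨hfit, htail, hCR, -, -⟩ := hS.three hK hC hD hL0 (norm_nonneg k) hLD hkD
  have hCs : 8 * C * s ≤ 1 := by nlinarith
  have hs0 : 2 * s ≤ h₀ := by linarith [hS.step]
  have ha := hw.logSlope htm (y - s • k) hS.pos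
  have h0 := hw.logSlope ht0 y hS.pos
  have hbs := hw.logSlope htp (y + s • k) hS.pos
  have hgm := hw.quadGrowth htm hy1
  have hgp := hw.quadGrowth htp hy2
  refine ⟨three_slices_slope (by positivity) hs hsR (by positivity) ha h0 hbs hgm hgp haL hbL
    hfit htail (fun x _ => hw.upConvex hs hs0 hCs htT y k x)
    (fun x _ => hw.downConcave hs hs0 hCs htT y k x),
    three_slices_center (by positivity) hs hsR (by positivity) ha h0 hbs hgm hgp haL hbL ?_
      htail (hw.upConvex hs hs0 hCs htT y k 0) (hw.downConcave hs hs0 hCs htT y k 0)⟩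
  have hA := one_le_absorbConst (show 0 ≤ 7 * sliceK F C by positivity)
  refine le_trans ?_ hfit
  rw [mul_assoc]
  refine mul_le_mul_of_nonneg_left ?_ hS.pos.le
  have p1 := mul_nonneg (show 0 ≤ absorbConst (7 * sliceK F C) by linarith) (sq_nonneg L)
  have p2 := mul_nonneg (show 0 ≤ absorbConst (7 * sliceK F C) by linarith) hL0
  have e : (10 + absorbConst (7 * sliceK F C)) * (2 + L) ^ 2 = 40 + 40 * L + 10 * L ^ 2 +
      4 * absorbConst (7 * sliceK F C) + 4 * (absorbConst (7 * sliceK F C) * L) +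
      absorbConst (7 * sliceK F C) * L ^ 2 := by ring
  linarith [sq_nonneg L]

/-- The coefficient of the recursion. -/
noncomputable def winStepConst (K : ℝ) : ℝ :=
  1 + (6 * K + 23 * K * (1 + Real.log (1 + 3 * K))) +
    4 * (7 * K) * (10 + absorbConst (7 * K)) * (1 + Real.log (10 + absorbConst (7 * K)))

/-- The constant below which all slopes on small scales stay, in units of `1 + log (1 / r)`. -/
noncomputable def slopeConst (K C : ℝ) : ℝ :=
  4 * (7 * K + 25 * C) + recConst (winStepConst K) + 6 * K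

/-- The bound on the slope along the moving line. -/
noncomputable def lineBound (K C r₀ : ℝ) : ℝ :=
  max (2 * (7 * K + 25 * C) * (1 + Real.log (2 / r₀))) (recConst (winStepConst K))

theorem stepConst_bounds {K : ℝ} (hK : 0 ≤ K) : 1 ≤ winStepConst K := by
  have hA := one_le_absorbConst (show 0 ≤ 7 * K by positivity)
  have := Real.log_nonneg (show (1 : ℝ) ≤ 10 + absorbConst (7 * K) by linarith)
  have := Real.log_nonneg (show (1 : ℝ) ≤ 1 + 3 * K by linarith)
  have : 0 ≤ 10 + absorbConst (7 * K) := by linarith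
  rw [winStepConst]
  have h1 : 0 ≤ 23 * K * (1 + Real.log (1 + 3 * K)) := by positivity
  have h2 : 0 ≤ 4 * (7 * K) * (10 + absorbConst (7 * K)) *
      (1 + Real.log (10 + absorbConst (7 * K))) := by positivity
  linarith

theorem recConst_fixed {c x : ℝ} (hc : 0 ≤ c) (hx : recConst c ≤ x) :
    x / 2 + c * (1 + Real.log (2 + x)) ≤ x := by
  have := one_le_recConst hc
  have h := mul_log_le hc (show 0 < 2 + x by linarith)
  have := mul_nonneg hc (add_nonneg zero_le_one
    (Real.log_nonneg (show (1 : ℝ) ≤ 8 * c + 2 by linarith)))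
  rw [recConst] at hx
  linarith

/-- The choice of the top scale. -/
structure TopScale (T₀ h₀ C K r₀ : ℝ) : Prop where
  small : ∀ R, 0 < R → R ≤ r₀ → SmallScale T₀ h₀ C K (slopeConst K C) R
  pos : 0 < r₀
  le_one : r₀ ≤ 1 / 4

theorem exists_topScale (hT : 0 < T₀) (hh : 0 < h₀) (hC : 0 ≤ C) {K : ℝ} (hK : 0 ≤ K) :
    ∃ r₀, TopScale T₀ h₀ C K r₀ := by
  set Z := smallConst K C (slopeConst K C) with hZ
  have hA := one_le_absorbConst (show 0 ≤ 7 * K by positivity)
  have hD : 0 ≤ slopeConst K C := by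
    have := one_le_recConst (zero_le_one.trans (stepConst_bounds hK))
    rw [slopeConst]; linarith
  have hZ1 : 0 < Z := by
    have : 0 ≤ (10 + absorbConst (7 * K)) * (2 + slopeConst K C) ^ 2 := by positivity
    rw [hZ, smallConst]; linarith
  refine ⟨min (min (T₀ / 4) (h₀ / 2)) (min (1 / 4) ((1 / (216 * Z)) ^ 2)), ⟨fun R hR hRle => ?_,
    lt_min (lt_min (by linarith) (by linarith)) (lt_min (by norm_num) (by positivity)),
    (min_le_right _ _).trans (min_le_left _ _)⟩⟩
  obtain ⟨⟨h1, h2⟩, h3, h4⟩ : (R ≤ T₀ / 4 ∧ R ≤ h₀ / 2) ∧ R ≤ 1 / 4 ∧ R ≤ (1 / (216 * Z)) ^ 2 := by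
    simpa using hRle
  refine ⟨hR, h3, ?_, by linarith, by linarith⟩
  have hs : Real.sqrt R ≤ 1 / (216 * Z) := (Real.sqrt_le_left (by positivity)).2 h4
  rw [le_div_iff₀ (by positivity)] at hs
  calc R * (1 + Real.log (1 / R)) ^ 2 * Z ≤ 216 * Real.sqrt R * Z :=
        mul_le_mul_of_nonneg_right (mul_log_sq_le hR (by linarith)) hZ1.le
    _ ≤ 1 := by linarith

variable {r₀ : ℝ}

theorem lineBound_nonneg {K : ℝ} (hK : 0 ≤ K) : 0 ≤ lineBound K C r₀ :=
  (zero_le_one.trans (one_le_recConst (zero_le_one.trans (stepConst_bounds hK)))).trans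
    (le_max_right _ _)

theorem lineBound_le {K R : ℝ} (hK : 0 ≤ K) (hC : 0 ≤ C) (hr0 : r₀ ≤ 1) (hR : 0 < R)
    (hRle : R ≤ r₀) :
    lineBound K C r₀ + 6 * K ≤ slopeConst K C * (1 + Real.log (1 / R)) := by
  have hmono : Real.log (1 / r₀) ≤ Real.log (1 / R) :=
    Real.log_le_log (by have := hR.trans_le hRle; positivity) (by gcongr)
  have h0 := Real.log_nonneg ((one_le_div (hR.trans_le hRle)).2 hr0)
  have hlog : Real.log (2 / r₀) ≤ 1 + Real.log (1 / R) := by
    rw [div_eq_mul_one_div, Real.log_mul two_ne_zero (by have := hR.trans_le hRle; positivity)]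
    linarith [Real.log_two_lt_d9]
  have hrec := one_le_recConst (zero_le_one.trans (stepConst_bounds hK))
  set l := 1 + Real.log (1 / R)
  have hl : 1 ≤ l := by linarith
  have hG : 0 ≤ 7 * K + 25 * C := by positivity
  have h1 : lineBound K C r₀ ≤ 4 * (7 * K + 25 * C) * l + recConst (winStepConst K) := by
    refine max_le ?_ (by nlinarith)
    calc 2 * (7 * K + 25 * C) * (1 + Real.log (2 / r₀))
        ≤ 2 * (7 * K + 25 * C) * (2 * l) := by gcongr; linarith
      _ ≤ _ := by linarith
  rw [slopeConst]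
  nlinarith

/-- The line through `(t, y)` moving with the slope at scale `r` keeps the slope. -/
theorem LocProf.line_slope (hw : LocProf T₀ h₀ C w) (hS : TopScale T₀ h₀ C (sliceK F C) r₀)
    {t : ℝ} {y : F} (ht : |t| ≤ r₀) (hy : ‖y‖ ≤ r₀) {r : ℝ} (hr : 0 < r) (hr0 : r ≤ r₀)
    {σ : ℝ} (hσ : |σ| ≤ r) :
    ‖locSlope C w r (t + σ) (y + σ • locSlope C w r t y) - locSlope C w r t y‖ ≤
      lineBound (sliceK F C) C r₀ := by
  have h4 := (hS.small r₀ hS.pos le_rfl).time
  have hp := hS.pos
  have hT : 0 < T₀ := by linarith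
  have hC := hw.const_nonneg hT
  have hK := sliceK_nonneg (F := F) hC
  have hq := hS.le_one
  set K := sliceK F C
  set B := lineBound K C r₀
  have hB0 : 0 ≤ B := lineBound_nonneg hK
  have hD : 0 ≤ slopeConst K C := by
    have := one_le_recConst (zero_le_one.trans (stepConst_bounds hK))
    rw [slopeConst]; linarith
  have hG : 0 ≤ 7 * K + 25 * C := by positivity
  have hvD : ∀ R, 0 < R → R ≤ r₀ →
      ‖locSlope C w R t y‖ ≤ slopeConst K C * (1 + Real.log (1 / R)) := by
    intro R hR hRle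
    refine (hw.slope_top (by linarith) (by linarith) hR (by linarith)).trans ?_
    have := logInv_nonneg hR (by linarith)
    gcongr
    have := one_le_recConst (zero_le_one.trans (stepConst_bounds hK))
    rw [slopeConst]; linarith
  have hpt : ∀ R, 0 < R → R ≤ r₀ → ∀ η, |η| ≤ R → ‖y + η • locSlope C w R t y‖ ≤ 2 := by
    intro R hR hRle η hη
    have h := ((hS.small R hR hRle).three hK hC hD (L := 0) le_rfl (norm_nonneg _)
      (by have := logInv_nonneg hR (by linarith); positivity)
      (hvD R hR hRle)).2.2.2.1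
    refine (norm_add_le _ _).trans ?_
    rw [norm_smul, Real.norm_eq_abs]
    nlinarith [norm_nonneg (locSlope C w R t y)]
  suffices key : ∀ n : ℕ, ∀ R, 0 < R → R ≤ r₀ → r₀ < 2 ^ (n + 1) * R → ∀ η, |η| ≤ R →
      ‖locSlope C w R (t + η) (y + η • locSlope C w R t y) - locSlope C w R t y‖ ≤ B by
    obtain ⟨n, hn⟩ := pow_unbounded_of_one_lt (r₀ / r) one_lt_two
    refine key n r hr hr0 ?_ σ hσ
    rw [div_lt_iff₀ hr] at hn
    rw [pow_succ]
    linarith [mul_pos (pow_pos (two_pos : (0 : ℝ) < 2) n) hr]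
  intro n
  induction n with
  | zero =>
    intro R hR hRle hlt η hη
    have hηt : |t + η| < T₀ := (abs_add_le _ _).trans_lt (by linarith)
    have h1 := hw.slope_top hηt (hpt R hR hRle η hη) hR (by linarith)
    have h2 := hw.slope_top (t := t) (y := y) (by linarith) (by linarith) hR (by linarith)
    refine le_trans ?_ (le_max_left _ _)
    have hlog : Real.log (1 / R) ≤ Real.log (2 / r₀) := by
      refine Real.log_le_log (by positivity) ?_
      rw [div_le_div_iff₀ hR hp]
      norm_num at hlt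
      linarith
    have := norm_sub_le (locSlope C w R (t + η) (y + η • locSlope C w R t y)) (locSlope C w R t y)
    nlinarith
  | succ n ih =>
    intro R hR hRle hlt η hη
    by_cases hh : r₀ < 2 ^ (n + 1) * R
    · exact ih R hR hRle hh η hη
    push Not at hh
    have h2R : 2 * R ≤ r₀ := by
      refine le_trans ?_ hh
      gcongr
      exact le_self_pow₀ one_le_two (by omega)
    have hS2 := hS.small (2 * R) (by linarith) h2R
    rcases eq_or_ne η 0 with rfl | hη0
    · simp [hB0]
    set k := locSlope C w (2 * R) t y with hk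
    set v := locSlope C w R t y with hv
    have hηpos : 0 < |η| := abs_pos.2 hη0
    have hprev : ∀ a, |a| ≤ 2 * R → ‖locSlope C w (2 * R) (t + a) (y + a • k) - k‖ ≤ B :=
      ih (2 * R) (by linarith) h2R (by rw [pow_succ] at hlt; linarith)
    have hpm : y + η • k - |η| • k = y + (η - |η|) • k := by module
    have hpp : y + η • k + |η| • k = y + (η + |η|) • k := by module
    have hab : abs (η - |η|) ≤ 2 * R ∧ abs (η + |η|) ≤ 2 * R :=
      ⟨(abs_sub _ _).trans (by rw [abs_abs]; linarith),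
        (abs_add_le _ _).trans (by rw [abs_abs]; linarith)⟩
    have hsum : ‖locSlope C w (2 * R) (t + (η - |η|)) (y + (η - |η|) • k) - k‖ +
        ‖locSlope C w (2 * R) (t + (η + |η|)) (y + (η + |η|) • k) - k‖ ≤ B := by
      rcases abs_choice η with e | e <;> rw [e]
      · have := hprev (η + η) (by rw [e] at hab; exact hab.2)
        simpa [hk] using this
      · have := hprev (η - -η) (by rw [e] at hab; exact hab.1)
        simpa [hk] using this
    have hηt : |t + η| < T₀ := (abs_add_le _ _).trans_lt (by linarith)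
    have hstep := (hw.three_step (t := t + η) (y := y + η • k) (k := k) (L := B) hS2 hD hηpos
      (by linarith) (Or.inr (by linarith [abs_add_le t η]))
      (by rw [hpm]; exact hpt (2 * R) (by linarith) h2R _ hab.1)
      (by rw [hpp]; exact hpt (2 * R) (by linarith) h2R _ hab.2)
      (by linarith [lineBound_le (K := K) hK hC (by linarith) (by linarith : 0 < 2 * R) h2R])
      (hvD _ (by linarith) h2R)
      (by
        have := norm_nonneg (locSlope C w (2 * R) (t + (η + |η|)) (y + (η + |η|) • k) - k)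
        rw [hpm, add_sub_assoc]; linarith)
      (by
        have := norm_nonneg (locSlope C w (2 * R) (t + (η - |η|)) (y + (η - |η|) • k) - k)
        rw [hpp, add_assoc t η |η|]; linarith)).1
    rw [hpm, hpp, add_sub_assoc t η |η|, add_assoc t η |η|] at hstep
    set a := locSlope C w (2 * R) (t + (η - |η|)) (y + (η - |η|) • k)
    set b := locSlope C w (2 * R) (t + (η + |η|)) (y + (η + |η|) • k)
    set g := locSlope C w (2 * R) (t + η) (y + η • k)
    have hmid : 2 * ‖g - k‖ ≤ B + ‖a + b - (2 : ℝ) • g‖ := by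
      have e : (2 : ℝ) • (g - k) = ((a - k) + (b - k)) - (a + b - (2 : ℝ) • g) := by module
      have := norm_sub_le ((a - k) + (b - k)) (a + b - (2 : ℝ) • g)
      rw [← e, norm_smul, Real.norm_two] at this
      linarith [norm_add_le (a - k) (b - k)]
    have hvk : ‖v - k‖ ≤ 3 * K := by
      have := (hw.slope_spec (show |t| < T₀ by linarith) y hR (by linarith)).norm_sub_le hR
        (by linarith : R ≤ 2 * R) (hw.slope_spec (show |t| < T₀ by linarith) y (by linarith) (by linarith))
      rw [mul_div_cancel_right₀ _ hR.ne'] at this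
      change ‖v - k‖ ≤ _ at this
      linarith
    have hgR : ‖locSlope C w R (t + η) (y + η • k) - g‖ ≤ 3 * K := by
      have := (hw.slope_spec hηt (y + η • k) hR (by linarith)).norm_sub_le hR
        (by linarith : R ≤ 2 * R) (hw.slope_spec hηt (y + η • k) (by linarith) (by linarith))
      rw [mul_div_cancel_right₀ _ hR.ne'] at this
      linarith
    have hmove : ‖locSlope C w R (t + η) (y + η • v) - locSlope C w R (t + η) (y + η • k)‖ ≤
        23 * K * (1 + Real.log (1 + 3 * K)) := by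
      have e : y + η • v = y + η • k + η • (v - k) := by rw [smul_sub]; abel
      have hfit := ((hS.small R hR hRle).three hK hC hD (L := 0) le_rfl le_rfl
        (by have := logInv_nonneg hR (by linarith); positivity)
        (by have := logInv_nonneg hR (by linarith); positivity)).2.2.2.2
      have := hw.slope_neighbour hηt (y + η • k) (η • (v - k)) hR
        (le_mul_of_one_le_right hR.le (by linarith : (1 : ℝ) ≤ 1 + 3 * K)) hfit (by
          rw [norm_smul, Real.norm_eq_abs]
          calc |η| * ‖v - k‖ ≤ R * (3 * K) := by gcongr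
            _ ≤ R * (1 + 3 * K) := by gcongr; linarith)
      rwa [← e, mul_div_cancel_left₀ _ hR.ne'] at this
    have hfin : ‖locSlope C w R (t + η) (y + η • v) - v‖ ≤
        ‖locSlope C w R (t + η) (y + η • v) - locSlope C w R (t + η) (y + η • k)‖ +
        ‖locSlope C w R (t + η) (y + η • k) - g‖ + ‖g - k‖ + ‖v - k‖ := by
      have t1 := norm_sub_le_norm_sub_add_norm_sub (locSlope C w R (t + η) (y + η • v))
        (locSlope C w R (t + η) (y + η • k)) v
      have t2 := norm_sub_le_norm_sub_add_norm_sub (locSlope C w R (t + η) (y + η • k)) g v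
      have t3 := norm_sub_le_norm_sub_add_norm_sub g k v
      rw [norm_sub_rev k v] at t3
      linarith
    have hfix := recConst_fixed (x := B) (zero_le_one.trans (stepConst_bounds hK)) (le_max_right _ _)
    have hL2 : 0 ≤ Real.log (2 + B) := Real.log_nonneg (by linarith)
    have hA := one_le_absorbConst (show 0 ≤ 7 * K by positivity)
    have hc : 4 * (7 * K) * (10 + absorbConst (7 * K)) ≤ winStepConst K := by
      have := Real.log_nonneg (show (1 : ℝ) ≤ 10 + absorbConst (7 * K) by linarith)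
      have := Real.log_nonneg (show (1 : ℝ) ≤ 1 + 3 * K by linarith)
      have h1 : 0 ≤ 23 * K * (1 + Real.log (1 + 3 * K)) := by positivity
      have h2 : 0 ≤ 4 * (7 * K) * (10 + absorbConst (7 * K)) *
          Real.log (10 + absorbConst (7 * K)) := by positivity
      rw [winStepConst]
      linarith
    have hc2 := mul_le_mul_of_nonneg_right hc hL2
    have : (0 : ℝ) ≤ 4 * (7 * K) * (10 + absorbConst (7 * K)) *
        (1 + Real.log (10 + absorbConst (7 * K))) := by
      have := Real.log_nonneg (show (1 : ℝ) ≤ 10 + absorbConst (7 * K) by linarith)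
      positivity
    have he : winStepConst K = 1 + (6 * K + 23 * K * (1 + Real.log (1 + 3 * K))) +
        4 * (7 * K) * (10 + absorbConst (7 * K)) *
          (1 + Real.log (10 + absorbConst (7 * K))) := rfl
    nlinarith

/-- The second difference of the line is `O(s (1 + log (r / s))^3)`. -/
theorem line_error_le {K A B l s : ℝ} (hK : 0 ≤ K) (hA : 1 ≤ A) (hB : 0 ≤ B) (hl : 1 ≤ l)
    (hs : 0 ≤ s) :
    (6 * K * l + B) ^ 2 * s + 4 * (7 * K) * s * (2 + A + 8 * (6 * K * l + B)) *
        (1 + Real.log (2 + A + 8 * (6 * K * l + B))) ≤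
      ((6 * K + B) ^ 2 + 8 * (7 * K) * (2 + A + 8 * (6 * K + B)) ^ 2) * (s * l ^ 3) := by
  have hBl : B ≤ B * l := le_mul_of_one_le_right hB hl
  have hAl : 2 + A ≤ (2 + A) * l := le_mul_of_one_le_right (by linarith) hl
  set L := 6 * K * l + B with hLdef
  have hL0 : 0 ≤ L := by positivity
  have hL : L ≤ (6 * K + B) * l := by rw [add_mul]; linarith
  set Λ := 2 + A + 8 * L with hΛ
  have hΛl : Λ ≤ (2 + A + 8 * (6 * K + B)) * l := by
    rw [hΛ, show (2 + A + 8 * (6 * K + B)) * l = (2 + A) * l + 8 * ((6 * K + B) * l) by ring]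
    linarith
  have hΛ0 : 0 < Λ := by linarith
  have hlogΛ : 1 + Real.log Λ ≤ 2 * Λ := by linarith [Real.log_le_sub_one_of_pos hΛ0]
  have h7 : 0 ≤ 4 * (7 * K) * s * Λ := by positivity
  calc L ^ 2 * s + 4 * (7 * K) * s * Λ * (1 + Real.log Λ)
      ≤ ((6 * K + B) * l) ^ 2 * s + 4 * (7 * K) * s * Λ * (2 * Λ) :=
        add_le_add (by gcongr) (mul_le_mul_of_nonneg_left hlogΛ h7)
    _ = ((6 * K + B) * l) ^ 2 * s + 8 * (7 * K) * s * Λ ^ 2 := by ring
    _ ≤ ((6 * K + B) * l) ^ 2 * s +
          8 * (7 * K) * s * ((2 + A + 8 * (6 * K + B)) * l) ^ 2 := by gcongr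
    _ = ((6 * K + B) ^ 2 + 8 * (7 * K) * (2 + A + 8 * (6 * K + B)) ^ 2) * (s * l ^ 2) := by ring
    _ ≤ _ := by gcongr <;> norm_num <;> linarith

/-- Windows at all small scales in `K1`. -/
theorem loc_windows' (T₀ h₀ C : ℝ) (hT : 0 < T₀) (hh : 0 < h₀) : ∃ r₀ C' : ℝ, 0 < r₀ ∧ 0 < C' ∧
    ∀ {w : ℝ → F → ℝ}, LocProf T₀ h₀ C w → ∀ (t : ℝ) (y : F) (r : ℝ), |t| ≤ r₀ → ‖y‖ ≤ r₀ →
      0 < r → r ≤ r₀ → ∃ (b : ℝ) (v : F), IsWin C' w t y r b v := by
  by_cases hC : 0 ≤ C
  swap
  · exact ⟨1, 1, one_pos, one_pos, fun hw => absurd (hw.const_nonneg hT) hC⟩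
  have hK : 0 ≤ sliceK F C := sliceK_nonneg hC
  obtain ⟨r₀, hS⟩ := exists_topScale hT hh hC hK
  set K := sliceK F C
  set B := lineBound K C r₀
  have hB0 : 0 ≤ B := lineBound_nonneg hK
  set A := absorbConst (7 * K)
  have hA : 1 ≤ A := one_le_absorbConst (by positivity)
  set D' := 6 * K + B with hD'
  have hD'0 : 0 ≤ D' := by positivity
  set cl := D' ^ 2 + 8 * (7 * K) * (2 + A + 8 * D') ^ 2 with hcl
  have hcl0 : 0 ≤ cl := by positivity
  refine ⟨r₀, 54 * cl + K + B + 1, hS.pos, by positivity, fun {w} hw t y r ht hy hr hr0 => ?_⟩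
  have hp := hS.pos
  have hq := hS.le_one
  have h4 := (hS.small r₀ hS.pos le_rfl).time
  have hD : 0 ≤ slopeConst K C := by
    have := one_le_recConst (zero_le_one.trans (stepConst_bounds hK))
    rw [slopeConst]; linarith
  set v := locSlope C w r t y with hvdef
  have hline : ∀ σ, |σ| ≤ r → ‖locSlope C w r (t + σ) (y + σ • v) - v‖ ≤ B :=
    fun σ hσ => hw.line_slope hS ht hy hr hr0 hσ
  have htime : ∀ σ, |σ| ≤ r → |t + σ| < T₀ :=
    fun σ hσ => (abs_add_le _ _).trans_lt (by linarith)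
  have hvD : ‖v‖ ≤ slopeConst K C * (1 + Real.log (1 / r)) := by
    refine (hw.slope_top (show |t| < T₀ by linarith) (by linarith) hr (by linarith)).trans ?_
    have := logInv_nonneg hr (by linarith)
    gcongr
    have := one_le_recConst (zero_le_one.trans (stepConst_bounds hK))
    rw [slopeConst]; linarith
  have hpt : ∀ σ, |σ| ≤ r → ‖y + σ • v‖ ≤ 2 := by
    intro σ hσ
    have h := ((hS.small r hr hr0).three hK hC hD (L := 0) le_rfl (norm_nonneg _)
      (by have := logInv_nonneg hr (by linarith); positivity) hvD).2.2.2.1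
    refine (norm_add_le _ _).trans ?_
    rw [norm_smul, Real.norm_eq_abs]
    nlinarith [norm_nonneg v]
  set f : ℝ → ℝ := fun σ => w (t + σ) (y + σ • v) with hf
  have hfc : ContinuousOn f (Icc (-r) r) :=
    hw.cont.comp (f := fun σ => (t + σ, y + σ • v)) (by fun_prop)
      fun σ hσ => ⟨abs_lt.1 (htime σ (abs_le.2 hσ)), mem_univ _⟩
  have hd : ∀ τ s, 0 < s → -r ≤ τ - s → τ + s ≤ r →
      |f (τ + s) + f (τ - s) - 2 * f τ| ≤ cl * (s * (1 + Real.log (r / s)) ^ 3) := by
    intro τ s hs h1 h2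
    have hsr : s ≤ r := by linarith
    set l := 1 + Real.log (r / s) with hldef
    have hl : 1 ≤ l := by linarith [Real.log_nonneg ((one_le_div hs).2 hsr)]
    set L := 6 * K * l + B with hLdef
    have hsl : ∀ a, |a| ≤ r → ‖locSlope C w s (t + a) (y + a • v) - v‖ ≤ L := fun a ha => by
      have t1 := norm_sub_le_norm_sub_add_norm_sub (locSlope C w s (t + a) (y + a • v))
        (locSlope C w r (t + a) (y + a • v)) v
      have t2 := hw.slope_scale (htime a ha) (y + a • v) hs hsr (by linarith)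
      linarith [hline a ha]
    have hm : |τ - s| ≤ r := abs_le.2 ⟨h1, by linarith⟩
    have hpl : |τ + s| ≤ r := abs_le.2 ⟨by linarith, h2⟩
    have hlog : Real.log (1 / s) = Real.log (1 / r) + Real.log (r / s) := by
      rw [← Real.log_mul (by positivity) (by positivity)]
      congr 1
      field_simp
    have hlr := logInv_nonneg hr (by linarith)
    have hLD : L ≤ slopeConst K C * (1 + Real.log (1 / s)) := by
      have hb := lineBound_le (C := C) hK hC (show r₀ ≤ 1 by linarith) hr hr0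
      have h6 : 6 * K ≤ slopeConst K C := by
        have := one_le_recConst (zero_le_one.trans (stepConst_bounds hK))
        rw [slopeConst]; linarith
      have := mul_le_mul_of_nonneg_right h6 (show 0 ≤ Real.log (r / s) by linarith)
      rw [hlog, hLdef, hldef]
      linarith
    have hkD : ‖v‖ ≤ slopeConst K C * (1 + Real.log (1 / s)) :=
      hvD.trans (by gcongr)
    have epm : y + τ • v - s • v = y + (τ - s) • v := by module
    have epp : y + τ • v + s • v = y + (τ + s) • v := by module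
    have hb1 := abs_le.1 (le_refl |t|)
    have h := (hw.three_step (t := t + τ) (y := y + τ • v) (k := v) (L := L)
      (hS.small s hs (hsr.trans hr0)) hD hs le_rfl
      (Or.inr (by
        have : |τ| ≤ r := abs_le.2 ⟨by linarith, by linarith⟩
        linarith [abs_add_le t τ]))
      (by rw [epm]; exact hpt _ hm) (by rw [epp]; exact hpt _ hpl) hLD hkD
      (by rw [epm, add_sub_assoc]; exact hsl _ hm)
      (by rw [epp, add_assoc]; exact hsl _ hpl)).2
    rw [epm, epp, add_sub_assoc t τ s, add_assoc t τ s] at h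
    exact le_trans h (line_error_le hK hA hB0 hl hs.le)
  refine ⟨(f r - f (-r)) / (2 * r) - ‖v‖ ^ 2 / 2, v, fun τ z hτ hz => ?_⟩
  have h1 := line_affine hcl0 hr hfc hd hτ
  have h2 := hw.slope_spec (htime τ hτ) (y + τ • v) hr (by linarith) z hz
  have h3 : |⟪locSlope C w r (t + τ) (y + τ • v) - v, z⟫| ≤ B * r :=
    (abs_real_inner_le_norm _ _).trans (mul_le_mul (hline τ hτ) hz (norm_nonneg _) hB0)
  rw [inner_sub_left] at h3
  simp only [hf, add_zero, zero_smul] at h1 ⊢
  rw [abs_le] at h1 h2 h3 ⊢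
  constructor <;> linarith

end Vale.Agent.P080.C1
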