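import Vale.Agent.P080.C1.Liouville
import Vale.Agent.P080.C1.Loc.Windows
import Vale.Agent.P080.C1.Zoom.Scale

/-!
B6a: improvement of flatness in the class `K1`.
-/

namespace Vale.Agent.P080.C1

open Metric Set Filter Topology
open scoped RealInnerProductSpace

set_option linter.unusedSectionVars false

variable {F : Type*} [NormedAddCommGroup F] [InnerProductSpace ℝ F] [FiniteDimensional ℝ F]

open Zoom

/-- The slope pair at the scale `ρ / 2 ^ j` is linear in `j`. -/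
theorem Zoom.exists_frame {T₀ h₀ C C' r₁ : ℝ} (hC' : 0 ≤ C') (hr : 0 < r₁) (hr1 : r₁ ≤ 1)
    (hrT : r₁ < T₀) {w : ℝ → F → ℝ} (hw : LocProf T₀ h₀ C w)
    (hwin : ∀ r, 0 < r → r ≤ r₁ → ∃ (b : ℝ) (v : F), IsWin C' w 0 0 r b v) (j : ℕ) :
    ∃ (b : ℝ) (v : F), IsWin C' w 0 0 (r₁ / 2 ^ j) b v ∧
      ‖v‖ ≤ ((8 * |C| + C' * r₁) / r₁ + 1 + 3 * C' + bStep C') ^ 2 * (1 + j) ∧
      |b| ≤ 3 * ((8 * |C| + C' * r₁) / r₁ + 1 + 3 * C' + bStep C') ^ 2 * (1 + j) := by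
  have hex : ∀ i : ℕ, ∃ (b : ℝ) (v : F),
      i ≤ j → IsWin C' w 0 0 (2 ^ i * (r₁ / 2 ^ j)) b v := by
    intro i
    by_cases hi : i ≤ j
    · obtain ⟨b, v, h⟩ := hwin (2 ^ i * (r₁ / 2 ^ j)) (by positivity) (by
        rw [mul_div_left_comm]
        exact mul_le_of_le_one_right hr.le
          ((div_le_one (by positivity)).2 (pow_le_pow_right₀ one_le_two hi)))
      exact ⟨b, v, fun _ => h⟩
    · exact ⟨0, 0, fun h => absurd h hi⟩
  choose b v hbv using hex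
  obtain ⟨c1, c2⟩ := win_chain hC' (show 0 < r₁ / 2 ^ j by positivity) hbv
  have htop := hbv j le_rfl
  rw [show (2 : ℝ) ^ j * (r₁ / 2 ^ j) = r₁ by field_simp] at htop
  obtain ⟨t1, t2⟩ := win_slope_bound (B := 4 * |C|) (S := r₁) hC' hr htop
    (fun s x hs hx => (hw.growth s x (hs.trans_lt hrT)).trans (by
      have h1 : (1 + ‖x‖) ^ 2 ≤ 4 := by nlinarith [norm_nonneg x]
      calc C * (1 + ‖x‖) ^ 2 ≤ |C| * (1 + ‖x‖) ^ 2 :=
            mul_le_mul_of_nonneg_right (le_abs_self C) (sq_nonneg _)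
        _ ≤ |C| * 4 := by gcongr
        _ = 4 * |C| := mul_comm _ _))
    (by simp) (by simp)
  obtain ⟨V, hV⟩ : ∃ V, V = (8 * |C| + C' * r₁) / r₁ := ⟨_, rfl⟩
  rw [show 2 * (4 * |C|) + C' * r₁ = 8 * |C| + C' * r₁ by ring, ← hV] at t1 t2
  rw [← hV]
  have hV0 : 0 ≤ V := by rw [hV]; positivity
  have hB := bStep_nonneg hC'
  obtain ⟨M, hM⟩ : ∃ M, M = V + 1 + 3 * C' + bStep C' := ⟨_, rfl⟩
  rw [← hM]
  have hM1 : 1 ≤ M := by linarith
  have hMM : M ≤ M ^ 2 := by nlinarith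
  have hj : (0 : ℝ) ≤ j := Nat.cast_nonneg j
  have hv0 : ‖v 0‖ ≤ M ^ 2 * (1 + j) := by
    have := norm_le_norm_add_norm_sub' (v 0) (v j)
    rw [norm_sub_rev] at c1
    nlinarith
  refine ⟨b 0, v 0, by simpa using hbv 0 (Nat.zero_le _), hv0, ?_⟩
  have hbj : |b j| ≤ 2 * M ^ 2 := by
    have h2 : ‖v j‖ ^ 2 ≤ M ^ 2 := pow_le_pow_left₀ (norm_nonneg _) (by linarith) 2
    rw [abs_le] at t2 ⊢
    constructor <;> nlinarith [sq_nonneg ‖v j‖]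
  rw [abs_le] at c2 hbj ⊢
  constructor <;> nlinarith

/-- The growth of a zoom at the scale `θ = r₁ / 2 ^ j`. -/
theorem Zoom.zm_growth {T₀ h₀ C C' r₁ θ b L S : ℝ} {v : F} {w : ℝ → F → ℝ} (hC' : 0 ≤ C')
    (hr : 0 < r₁) (hw : LocProf T₀ h₀ C w) (hθ : 0 < θ)
    (hwin : ∀ r, 0 < r → r ≤ r₁ → ∃ (b : ℝ) (v : F), IsWin C' w 0 0 r b v)
    (hb : IsWin C' w 0 0 θ b v) (hv : ‖v‖ ≤ L) (hbL : |b| ≤ L) (hL : 1 ≤ L)
    (hS : θ * S < T₀) {e : ℝ} (he : 0 < e)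
    (h1 : 16 * |C| * (θ * L ^ 2) ≤ e) (h2 : 12 * L ^ 2 * Real.sqrt (2 * scaleK C' * θ / r₁) ≤ e)
    {t : ℝ} {y : F} (ht : |t| ≤ S) :
    |zm w θ b v t y| ≤ (growC C' + 4 * |C| * scaleK C' / r₁) *
      (Zoom.size t y * Real.sqrt (Zoom.size t y)) + e * Zoom.size t y ^ 2 := by
  obtain ⟨x, hx⟩ : ∃ x, x = Zoom.size t y := ⟨_, rfl⟩
  rw [← hx]
  have hx1 : 1 ≤ x := by rw [hx, Zoom.size]; linarith [abs_nonneg t, norm_nonneg y]
  have hK : 1 ≤ scaleK C' := one_le_pow₀ (by linarith)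
  have hG := growC_nonneg hC'
  have h4 : 0 ≤ 4 * |C| * scaleK C' / r₁ := by positivity
  have hX : 0 ≤ x * Real.sqrt x := by positivity
  by_cases htop : 2 * scaleK C' * (x * Real.sqrt x) * θ ≤ r₁
  · have hq : |θ * t| + ‖θ • y‖ ≤ (x - 1) * θ := by
      rw [abs_mul, norm_smul, Real.norm_eq_abs, abs_of_pos hθ, hx, Zoom.size]
      linarith
    have hg := growth_upto hC' hθ hb (fun ρ ha hb => hwin ρ (hθ.trans_le ha) hb) hq (by linarith)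
      (by rw [add_sub_cancel]; exact htop)
    rw [hw.zero, add_sub_cancel, zero_add, zero_add, sub_zero, real_inner_smul_right] at hg
    have e1 : θ • (y + t • v) = (θ * t) • v + θ • y := by module
    refine le_add_of_le_of_nonneg ?_ (by positivity)
    calc |zm w θ b v t y| ≤ growC C' * (x * Real.sqrt x) := by
          refine le_of_mul_le_mul_left ?_ hθ
          calc θ * |zm w θ b v t y| = |θ * zm w θ b v t y| := by rw [abs_mul, abs_of_pos hθ]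
            _ ≤ growC C' * θ * (x * Real.sqrt x) := by
              refine le_of_eq_of_le ?_ hg
              congr 1
              simp only [zm, e1]
              field_simp
              ring
            _ = θ * (growC C' * (x * Real.sqrt x)) := by ring
      _ ≤ _ := mul_le_mul_of_nonneg_right (by linarith) hX
  push Not at htop
  have hxn : |t| ≤ x ∧ ‖y‖ ≤ x := by
    rw [hx, Zoom.size]; constructor <;> linarith [abs_nonneg t, norm_nonneg y]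
  have hgr : |w (θ * t) (θ • (y + t • v))| ≤ |C| * (2 + 8 * (θ * L) ^ 2 * x ^ 2) := by
    refine (hw.growth _ _ ?_).trans ?_
    · rw [abs_mul, abs_of_pos hθ]; exact (mul_le_mul_of_nonneg_left ht hθ.le).trans_lt hS
    have hn : ‖θ • (y + t • v)‖ ≤ 2 * (θ * L) * x := by
      rw [norm_smul, Real.norm_eq_abs, abs_of_pos hθ]
      have h3 : ‖y + t • v‖ ≤ x + x * L := (norm_add_le _ _).trans (add_le_add hxn.2 (by
        rw [norm_smul, Real.norm_eq_abs]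
        exact mul_le_mul hxn.1 hv (norm_nonneg v) (by linarith)))
      calc θ * ‖y + t • v‖ ≤ θ * (x + x * L) := mul_le_mul_of_nonneg_left h3 hθ.le
        _ ≤ θ * (x * L + x * L) := by gcongr; exact le_mul_of_one_le_right (by linarith) hL
        _ = 2 * (θ * L) * x := by ring
    refine (mul_le_mul_of_nonneg_right (le_abs_self C) (sq_nonneg _)).trans ?_
    refine mul_le_mul_of_nonneg_left ?_ (abs_nonneg C)
    calc (1 + ‖θ • (y + t • v)‖) ^ 2 ≤ (1 + 2 * (θ * L) * x) ^ 2 := by gcongr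
      _ ≤ _ := by linarith [sq_nonneg (1 - 2 * (θ * L) * x)]
  have hlin : |⟪v, y⟫ + (‖v‖ ^ 2 / 2 + b) * t| ≤ 3 * L ^ 2 * x := by
    refine (abs_add_le _ _).trans ?_
    rw [abs_mul]
    have a1 : |⟪v, y⟫| ≤ L * x :=
      (abs_real_inner_le_norm v y).trans (mul_le_mul hv hxn.2 (norm_nonneg y) (by linarith))
    have a2 : |‖v‖ ^ 2 / 2 + b| ≤ 2 * L ^ 2 := by
      rw [abs_le] at hbL ⊢
      have a5 : ‖v‖ ^ 2 ≤ L ^ 2 := pow_le_pow_left₀ (norm_nonneg v) hv 2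
      have a6 : L ≤ L ^ 2 := le_self_pow₀ hL two_ne_zero
      constructor <;> linarith [sq_nonneg ‖v‖]
    have a3 := mul_le_mul a2 hxn.1 (abs_nonneg t) (by positivity)
    have a4 : L * x ≤ L ^ 2 * x :=
      mul_le_mul_of_nonneg_right (le_self_pow₀ hL two_ne_zero) (by linarith)
    linarith
  obtain ⟨q, hq⟩ : ∃ q, q = 2 * scaleK C' * θ / r₁ := ⟨_, rfl⟩
  rw [← hq] at h2
  have hq0 : 0 ≤ q := by rw [hq]; positivity
  have hqx : 1 ≤ Real.sqrt q * x := by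
    have h3 : 1 ≤ q * x ^ 2 := by
      have : 1 ≤ q * (x * Real.sqrt x) := by
        rw [hq, div_mul_eq_mul_div, one_le_div hr]; linarith
      have hsx : Real.sqrt x ≤ x :=
        Real.sqrt_le_iff.2 ⟨by linarith, le_self_pow₀ hx1 two_ne_zero⟩
      linarith [mul_le_mul_of_nonneg_left (mul_le_mul_of_nonneg_left hsx
        (show (0 : ℝ) ≤ x by linarith)) hq0]
    calc (1 : ℝ) = Real.sqrt 1 := Real.sqrt_one.symm
      _ ≤ Real.sqrt (q * x ^ 2) := Real.sqrt_le_sqrt h3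
      _ = Real.sqrt q * x := by rw [Real.sqrt_mul hq0, Real.sqrt_sq (by linarith)]
  have hinv : |C| * (2 / θ) ≤ 4 * |C| * scaleK C' / r₁ * (x * Real.sqrt x) := by
    have : 2 / θ ≤ 4 * scaleK C' * (x * Real.sqrt x) / r₁ := by
      rw [div_le_div_iff₀ hθ hr]; linarith
    refine (mul_le_mul_of_nonneg_left this (abs_nonneg C)).trans (le_of_eq ?_)
    ring
  have hlin2 : 3 * L ^ 2 * x ≤ e / 4 * x ^ 2 := by
    have : 3 * L ^ 2 * x ≤ 3 * L ^ 2 * x * (Real.sqrt q * x) :=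
      le_mul_of_one_le_right (by positivity) hqx
    linarith [mul_le_mul_of_nonneg_right h2 (sq_nonneg x)]
  have hquad : |C| * (8 * (θ * L ^ 2)) * x ^ 2 ≤ e / 2 * x ^ 2 :=
    mul_le_mul_of_nonneg_right (by linarith) (sq_nonneg x)
  calc |zm w θ b v t y| ≤ |w (θ * t) (θ • (y + t • v)) / θ| +
        |⟪v, y⟫ + (‖v‖ ^ 2 / 2 + b) * t| := abs_sub _ _
    _ ≤ |C| * (2 + 8 * (θ * L) ^ 2 * x ^ 2) / θ + 3 * L ^ 2 * x := by
        rw [abs_div, abs_of_pos hθ]; gcongr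
    _ = |C| * (2 / θ) + |C| * (8 * (θ * L ^ 2)) * x ^ 2 + 3 * L ^ 2 * x := by field_simp
    _ ≤ _ := by rw [add_mul]; linarith [mul_nonneg hG hX, mul_nonneg he.le (sq_nonneg x)]

/-- Monotone slopes of a zoom, for steps small against the scale. -/
theorem Zoom.mono_zm {T₀ h₀ C θ b t h₁ h₂ : ℝ} {v y : F} {u : ℝ → F → ℝ} (hθ : 0 < θ)
    (hu : LocMono T₀ h₀ u) (hg : ∀ t y, |t| < T₀ → |u t y| ≤ C * (1 + ‖y‖) ^ 2)
    (h1 : 0 < h₁) (h12 : h₁ ≤ h₂) (a1 : θ * h₂ ≤ h₀) (a2 : θ * (|t| + h₂) < T₀)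
    (a3 : |C| * (θ * h₂) ≤ 1 / 4) :
    Sp (zm u θ b v) h₁ t y ≤ Sp (zm u θ b v) h₂ t y := by
  have h2 : 0 < h₂ := h1.trans_le h12
  have ht : θ * t ≤ θ * |t| ∧ -(θ * |t|) ≤ θ * t := by
    constructor
    · exact mul_le_mul_of_nonneg_left (le_abs_self t) hθ.le
    · rw [← mul_neg]; exact mul_le_mul_of_nonneg_left (neg_abs_le t) hθ.le
  have hsum : θ * (|t| + h₂) = θ * |t| + θ * h₂ := mul_add _ _ _
  have bd : ∀ h, 0 < h → h ≤ h₂ → BddAbove (range fun z =>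
      u (θ * t + θ * h) (θ • (y + t • v) + z) - ‖z‖ ^ 2 / (2 * (θ * h))) := by
    intro h hh hle
    have h3 : θ * h ≤ θ * h₂ := mul_le_mul_of_nonneg_left hle hθ.le
    have h4 : 0 < θ * h := mul_pos hθ hh
    refine bddAbove_of_growth (fun z => hg _ z ?_) h4 ?_
    · rw [abs_lt]; constructor <;> linarith
    · linarith [mul_le_mul_of_nonneg_right (le_abs_self C) h4.le,
        mul_le_mul_of_nonneg_left h3 (abs_nonneg C)]
  rw [Sp_zm hθ h1 (bd h₁ h1 h12), Sp_zm hθ h2 (bd h₂ h2 le_rfl)]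
  have h5 : 0 < θ * h₂ := mul_pos hθ h2
  exact sub_le_sub_right (hu _ _ _ _ (by positivity) (mul_le_mul_of_nonneg_left h12 hθ.le) a1
    (by linarith) (by linarith)) _

/-- The frame found at a small scale stays within the budget. -/
theorem Zoom.frame_bound {D J b₀ b' : ℝ} {v₀ v' : F} (hD : 3 ≤ D) (hJ : 1 ≤ J)
    (hv : ‖v₀‖ ≤ D * J) (hb : |b₀| ≤ D * J)
    (hc : 5 * D ^ 2 + |b'| + 2 * ‖v'‖ * D + ‖v'‖ ≤ J) :
    |b' + b₀ + ‖v₀‖ ^ 2 / 2 - ⟪v₀ + v', v₀⟫| ≤ J ^ 5 ∧ ‖v₀ + v'‖ ≤ J ^ 5 := by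
  have hv' : 0 ≤ ‖v'‖ := norm_nonneg _
  have hk : ‖v₀ + v'‖ ≤ D * J + ‖v'‖ := (norm_add_le _ _).trans (add_le_add hv le_rfl)
  have hJ3 : J ^ 3 ≤ J ^ 5 := pow_le_pow_right₀ hJ (by norm_num)
  have hJ2 : J ≤ J ^ 2 := le_self_pow₀ hJ two_ne_zero
  have hDD : D ≤ D ^ 2 := le_self_pow₀ (by linarith) two_ne_zero
  have hmain : (5 * D ^ 2 + |b'| + 2 * ‖v'‖ * D + ‖v'‖) * J ^ 2 ≤ J ^ 3 :=
    (mul_le_mul_of_nonneg_right hc (by positivity)).trans (le_of_eq (by ring))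
  rw [add_mul, add_mul, add_mul] at hmain
  have p1 : D * J ≤ D ^ 2 * J ^ 2 := mul_le_mul hDD hJ2 (by linarith) (by positivity)
  have p2 : |b'| ≤ |b'| * J ^ 2 := le_mul_of_one_le_right (abs_nonneg _) (hJ.trans hJ2)
  have p3 : ‖v'‖ ≤ ‖v'‖ * J ^ 2 := le_mul_of_one_le_right hv' (hJ.trans hJ2)
  have p4 : ‖v'‖ * (D * J) ≤ ‖v'‖ * D * J ^ 2 := by
    rw [mul_assoc]; gcongr
  have p5 : 0 ≤ D ^ 2 * J ^ 2 := by positivity
  have p6 : 0 ≤ |b'| * J ^ 2 := by positivity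
  have p7 : 0 ≤ ‖v'‖ * D * J ^ 2 := by positivity
  have p8 : 0 ≤ ‖v'‖ * J ^ 2 := by positivity
  refine ⟨?_, by linarith⟩
  have h1 : |⟪v₀ + v', v₀⟫| ≤ (D * J + ‖v'‖) * (D * J) :=
    (abs_real_inner_le_norm _ _).trans (mul_le_mul hk hv (norm_nonneg _) (by positivity))
  have h2 : ‖v₀‖ ^ 2 ≤ (D * J) ^ 2 := pow_le_pow_left₀ (norm_nonneg _) hv 2
  rw [add_mul, ← sq, mul_pow] at h1
  rw [mul_pow] at h2
  rw [abs_le] at h1 hb ⊢
  constructor <;> linarith [le_abs_self b', neg_abs_le b', sq_nonneg ‖v₀‖]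

/-- Undoing a zoom that is close to affine. -/
theorem Zoom.unzoom {θ b b' t ε : ℝ} {v v' y : F} {w : ℝ → F → ℝ} (hθ : 0 < θ)
    (h : |zm w θ b v (t / θ) (θ⁻¹ • y - (t / θ) • v) -
      (b' * (t / θ) + ⟪v', θ⁻¹ • y - (t / θ) • v⟫)| ≤ ε) :
    |w t y - (b' + b + ‖v‖ ^ 2 / 2 - ⟪v + v', v⟫) * t - ⟪v + v', y⟫| ≤ θ * ε := by
  have e : w t y - (b' + b + ‖v‖ ^ 2 / 2 - ⟪v + v', v⟫) * t - ⟪v + v', y⟫ =
      θ * (zm w θ b v (t / θ) (θ⁻¹ • y - (t / θ) • v) -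
        (b' * (t / θ) + ⟪v', θ⁻¹ • y - (t / θ) • v⟫)) := by
    simp only [zm, sub_add_cancel, smul_inv_smul₀ hθ.ne', mul_div_cancel₀ _ hθ.ne',
      inner_sub_right, real_inner_smul_right, inner_add_left, real_inner_self_eq_norm_sq]
    field_simp
    ring
  rw [e, abs_mul, abs_of_pos hθ]
  exact mul_le_mul_of_nonneg_left h hθ.le

/-- At one fixed small scale every member of `K1` is almost affine. -/
theorem loc_improvement (T₀ h₀ C : ℝ) (hT : 0 < T₀) (hh : 0 < h₀) : ∃ θ c : ℝ, 0 < θ ∧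
    θ ≤ 1 / 4 ∧ 4 * θ ≤ T₀ ∧ 0 < c ∧ ∀ {w : ℝ → F → ℝ}, LocProf T₀ h₀ C w →
      ∃ (b : ℝ) (k : F), |b| ≤ c ∧ ‖k‖ ≤ c ∧ ∀ (t : ℝ) (y : F), |t| ≤ 2 * θ →
        ‖y - t • k‖ ≤ 8 * θ → |w t y - b * t - ⟪k, y⟫| ≤ θ / 64 := by
  obtain ⟨r₀, C', hr₀, hC', hwins⟩ := loc_windows (F := F) T₀ h₀ C hT hh
  obtain ⟨r₁, hr₁⟩ : ∃ r₁, r₁ = min r₀ (min (1 / 4) (T₀ / 4)) := ⟨_, rfl⟩
  have hr10 : 0 < r₁ := by rw [hr₁]; positivity
  have hr1r : r₁ ≤ r₀ := hr₁ ▸ min_le_left _ _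
  have hr14 : r₁ ≤ 1 / 4 := hr₁ ▸ (min_le_right _ _).trans (min_le_left _ _)
  have hr1T : r₁ ≤ T₀ / 4 := hr₁ ▸ (min_le_right _ _).trans (min_le_right _ _)
  by_contra hcon
  push Not at hcon
  have hθ : ∀ j : ℕ, 0 < r₁ / 2 ^ j := fun j => by positivity
  have hθle : ∀ j : ℕ, r₁ / 2 ^ j ≤ r₁ := fun j =>
    div_le_self hr10.le (one_le_pow₀ one_le_two)
  have hbad : ∀ j : ℕ, ∃ w : ℝ → F → ℝ, LocProf T₀ h₀ C w ∧ ∀ (b : ℝ) (k : F),
      |b| ≤ (1 + j : ℝ) ^ 5 → ‖k‖ ≤ (1 + j : ℝ) ^ 5 → ∃ (t : ℝ) (y : F),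
        |t| ≤ 2 * (r₁ / 2 ^ j) ∧ ‖y - t • k‖ ≤ 8 * (r₁ / 2 ^ j) ∧
          r₁ / 2 ^ j / 64 < |w t y - b * t - ⟪k, y⟫| := fun j =>
    hcon (r₁ / 2 ^ j) ((1 + j : ℝ) ^ 5) (hθ j) ((hθle j).trans hr14)
      (by linarith [hθle j]) (by positivity)
  choose w hw hb using hbad
  have hwin : ∀ j r, 0 < r → r ≤ r₁ → ∃ (b : ℝ) (v : F), IsWin C' (w j) 0 0 r b v :=
    fun j r h1 h2 => hwins (hw j) 0 0 r (by simp [hr₀.le]) (by simp [hr₀.le]) h1 (h2.trans hr1r)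
  choose bf vf hframe hvf hbf using fun j =>
    exists_frame hC'.le hr10 (by linarith) (by linarith) (hw j) (hwin j) j
  obtain ⟨D, hD⟩ : ∃ D, D = 3 * ((8 * |C| + C' * r₁) / r₁ + 1 + 3 * C' + bStep C') ^ 2 :=
    ⟨_, rfl⟩
  have hD3 : 3 ≤ D := by
    have : (0 : ℝ) ≤ (8 * |C| + C' * r₁) / r₁ := by positivity
    have := bStep_nonneg hC'.le
    rw [hD]; nlinarith
  obtain ⟨θ, hθd⟩ : ∃ θ : ℕ → ℝ, θ = fun j : ℕ => r₁ / 2 ^ j := ⟨_, rfl⟩
  obtain ⟨L, hLd⟩ : ∃ L : ℕ → ℝ, L = fun j : ℕ => D * (1 + (j : ℝ)) := ⟨_, rfl⟩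
  have hθp : ∀ j, 0 < θ j := fun j => hθd ▸ hθ j
  have hL1 : ∀ j, 1 ≤ L j := fun j => by
    rw [hLd]; exact one_le_mul_of_one_le_of_one_le (by linarith) (by simp)
  have hvL : ∀ j, ‖vf j‖ ≤ L j := fun j => (hvf j).trans (by
    rw [hLd, hD]; nlinarith [Nat.cast_nonneg (α := ℝ) j,
      sq_nonneg ((8 * |C| + C' * r₁) / r₁ + 1 + 3 * C' + bStep C')])
  have hbL : ∀ j, |bf j| ≤ L j := fun j => (hbf j).trans (by rw [hLd, hD])
  have hlim : ∀ p : ℕ, Tendsto (fun j => θ j * L j ^ p) atTop (𝓝 0) := by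
    intro p
    have h1 := (tendsto_pow_const_div_const_pow_of_one_lt p (one_lt_two (α := ℝ))).comp
      (tendsto_add_atTop_nat 1)
    have h2 := h1.const_mul (2 * r₁ * D ^ p)
    rw [mul_zero] at h2
    refine h2.congr fun j => ?_
    simp only [Function.comp, hθd, hLd]
    push_cast
    rw [pow_succ, mul_pow, add_comm (j : ℝ) 1]
    field_simp
  have hsmall : ∀ (p : ℕ) (a e : ℝ), 0 < e → ∀ᶠ j in atTop, a * (θ j * L j ^ p) ≤ e :=
    fun p a e he => ((tendsto_order.1 ((hlim p).const_mul a)).2 e (by simpa using he)).mono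
      fun j h => h.le
  obtain ⟨W, hW⟩ : ∃ W : ℕ → ℝ → F → ℝ, W = fun j => zm (w j) (θ j) (bf j) (vf j) := ⟨_, rfl⟩
  have hpt : ∀ (t : ℝ) (y : F) (e : ℝ), 0 < e →
      ∀ᶠ j in atTop, θ j * |t| ≤ e ∧ ‖θ j • (y + t • vf j)‖ ≤ e := by
    intro t y e he
    filter_upwards [hsmall 0 |t| e he, hsmall 1 (|t| + ‖y‖) e he] with j h1 h2
    refine ⟨by rw [pow_zero, mul_one] at h1; linarith, ?_⟩
    rw [norm_smul, Real.norm_eq_abs, abs_of_pos (hθp j)]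
    rw [pow_one] at h2
    refine le_trans ?_ h2
    rw [mul_comm (|t| + ‖y‖), mul_assoc]
    refine mul_le_mul_of_nonneg_left ((norm_add_le _ _).trans ?_) (hθp j).le
    rw [norm_smul, Real.norm_eq_abs]
    nlinarith [hvL j, hL1 j, abs_nonneg t, norm_nonneg y]
  have hmono : ∀ (u : ℕ → ℝ → F → ℝ) (v : ℕ → F), (∀ j, LocMono T₀ h₀ (u j)) →
      (∀ j t y, |t| < T₀ → |u j t y| ≤ C * (1 + ‖y‖) ^ 2) → ∀ t y h₁ h₂, 0 < h₁ → h₁ ≤ h₂ →
      ∀ᶠ j in atTop, Sp (zm (u j) (θ j) (bf j) (v j)) h₁ t y ≤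
        Sp (zm (u j) (θ j) (bf j) (v j)) h₂ t y := by
    intro u v hu hg t y h₁ h₂ h1 h12
    filter_upwards [hsmall 0 h₂ h₀ hh, hsmall 0 (|t| + h₂) (T₀ / 2) (by positivity),
      hsmall 0 (|C| * h₂) (1 / 4) (by norm_num)] with j a1 a2 a3
    simp only [pow_zero, mul_one] at a1 a2 a3
    refine mono_zm (hθp j) (hu j) (hg j) h1 h12 (by rwa [mul_comm]) ?_ (le_of_eq_of_le (by ring) a3)
    rw [mul_comm]; linarith
  have hboxes : ∀ (u : ℕ → ℝ → F → ℝ) (v : ℕ → F), (∀ j, LocBarrier T₀ (u j)) →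
      ∀ (t : ℝ) (y k : F) (T R L M c K : ℝ), 0 < T → 0 < R → 0 ≤ M → 4 * M ^ 3 * R ^ 2 < L →
      ∀ᶠ j in atTop, BoxCmp (zm (u j) (θ j) (bf j) (v j)) t y k T R L M c K := by
    intro u v hu t y k T R L M c K h1 h2 h3 h4
    filter_upwards [hsmall 0 (|t| + T) (T₀ / 2) (by positivity)] with j hj
    rw [pow_zero, mul_one] at hj
    refine boxCmp_zm (hu j) (hθp j) h1 h2 h3 h4 ?_ ?_
    · nlinarith [neg_abs_le t, hθp j]
    · nlinarith [le_abs_self t, hθp j]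
  have happ : Approx C' (growC C' + 4 * |C| * scaleK C' / r₁) W := by
    refine ⟨fun S e he => ?_, fun t y r hr => ?_, ?_, ?_, ?_, ?_⟩
    · filter_upwards [hsmall 2 (16 * |C|) e he, hsmall 0 S (T₀ / 2) (by positivity),
        hsmall 4 (288 * scaleK C' / r₁) (e ^ 2) (by positivity)] with j a1 a2 a3 t y ht
      rw [hW]
      refine zm_growth hC'.le hr10 (hw j) (hθp j) (hwin j) (hθd ▸ hframe j)
        (hvL j) (hbL j) (hL1 j) (by rw [pow_zero, mul_one] at a2; linarith) he a1 ?_ ht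
      have hK0 : 0 ≤ scaleK C' := sq_nonneg _
      refine le_of_eq_of_le (b := Real.sqrt ((12 * L j ^ 2) ^ 2 * (2 * scaleK C' * θ j / r₁))) ?_
        ((Real.sqrt_le_sqrt ?_).trans_eq (Real.sqrt_sq he.le))
      · rw [Real.sqrt_mul (sq_nonneg _), Real.sqrt_sq (by positivity)]
      · refine le_of_eq_of_le ?_ a3
        ring
    · filter_upwards [hpt t y r₀ hr₀, hsmall 0 r r₀ hr₀] with j ⟨a1, a2⟩ a3
      rw [pow_zero, mul_one] at a3
      obtain ⟨b', v', h⟩ := hwins (hw j) (θ j * t) (θ j • (y + t • vf j)) (θ j * r)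
        (by rw [abs_mul, abs_of_pos (hθp j)]; exact a1) a2 (mul_pos (hθp j) hr) (by linarith)
      rw [hW]
      exact ⟨_, _, isWin_zm (hθp j) h⟩
    · rw [hW]
      exact hmono w vf (fun j => (hw j).mono) fun j => (hw j).growth
    · intro t y a b ha hab
      simp only [hW, mir_zm]
      refine hmono (fun j => mir (w j)) (fun j => -vf j) (fun j => (hw j).mono_mir) ?_ t y a b ha hab
      intro j s x hs
      rw [mir, abs_neg]
      exact (hw j).growth _ _ (by rwa [abs_neg])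
    · rw [hW]
      exact hboxes w vf fun j => (hw j).barrier
    · intro t y k T R L M c K h1 h2 h3 h4
      simp only [hW, mir_zm]
      exact hboxes _ _ (fun j => (hw j).barrier_mir) t y k T R L M c K h1 h2 h3 h4
  obtain ⟨φ, w', hφ, hprof, hptw, hu⟩ := exists_prof_limit hC'.le happ
  obtain ⟨a, b', v', haff⟩ := hprof.affine
  have ha : a = 0 := by
    have h0 := haff 0 0
    rw [mul_zero, inner_zero_right, add_zero, add_zero] at h0
    rw [← h0]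
    refine tendsto_nhds_unique (hptw 0 0) (tendsto_const_nhds.congr fun n => ?_)
    simp only [hW, zm_zero (hw _).zero]
  obtain ⟨S, hS⟩ : ∃ S, S = 8 + 2 * ‖v'‖ := ⟨_, rfl⟩
  have hbig : ∀ᶠ j : ℕ in atTop, 5 * D ^ 2 + |b'| + 2 * ‖v'‖ * D + ‖v'‖ ≤ 1 + (j : ℝ) := by
    filter_upwards [tendsto_natCast_atTop_atTop.eventually_ge_atTop
      (5 * D ^ 2 + |b'| + 2 * ‖v'‖ * D + ‖v'‖)] with j hj
    linarith
  obtain ⟨n, hn, hcn⟩ := ((hu S (1 / 128) (by norm_num)).and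
    (hφ.tendsto_atTop.eventually hbig)).exists
  obtain ⟨j, hj⟩ : ∃ j, j = φ n := ⟨_, rfl⟩
  rw [← hj] at hn hcn
  obtain ⟨J, hJ⟩ : ∃ J : ℝ, J = 1 + j := ⟨_, rfl⟩
  rw [← hJ] at hcn
  have hJ1 : 1 ≤ J := by rw [hJ]; simp
  have hLJ : L j = D * J := by rw [hLd, hJ]
  have hv := hvL j
  have hb' := hbL j
  rw [hLJ] at hv hb'
  obtain ⟨hbc, hkc⟩ := frame_bound (b' := b') (v' := v') hD3 hJ1 hv hb' hcn
  obtain ⟨t, y, ht, hy, hbad'⟩ := hb j _ _ (hJ ▸ hbc) (hJ ▸ hkc)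
  have hθj : r₁ / 2 ^ j = θ j := by rw [hθd]
  rw [hθj] at ht hy hbad'
  have hp := hθp j
  have hτ2 : |t / θ j| ≤ 2 := by rw [abs_div, abs_of_pos hp, div_le_iff₀ hp]; exact ht
  have hz : (θ j)⁻¹ • y - (t / θ j) • vf j =
      (θ j)⁻¹ • (y - t • (vf j + v')) + (t / θ j) • v' := by rw [div_eq_inv_mul]; module
  have hzS : ‖(θ j)⁻¹ • y - (t / θ j) • vf j‖ ≤ S := by
    rw [hz, hS]
    refine (norm_add_le _ _).trans (add_le_add ?_ ?_)
    · rw [norm_smul, norm_inv, Real.norm_eq_abs, abs_of_pos hp, inv_mul_le_iff₀ hp]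
      linarith
    · rw [norm_smul, Real.norm_eq_abs]; exact mul_le_mul_of_nonneg_right hτ2 (norm_nonneg _)
  have h1 := hn _ _ (hτ2.trans (by rw [hS]; linarith [norm_nonneg v'])) hzS
  rw [haff, ha, zero_add, hW] at h1
  linarith [unzoom hp h1]

end Vale.Agent.P080.C1
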